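import Vale.Agent.P268.T.H73.KPath
import Vale.Agent.P268.T.K372.SheetsV2
import Vale.Agent.P268.T.Reduce

/-!
# P268, topological half, block B4c: the free homotopies of the K-form

`Y` = any space with a continuous map `u` into the cube `‖x‖ ≤ 1`, `B ⊆ Y` with `‖u q‖ = 1` on `B`,
`A : EuclideanSpace ℝ (Fin (n + 1)) → V` a linear isometry with `A e = φ.h`.

* `refC` : the reference field, a map `Y → V ∖ 0`, in `H` on `B`;
* `exists_pair_le` : differences of comparable sheets are freely homotopic to `refC`;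
* `exists_pair_inc` : differences of incomparable sheets can be deformed into `H ∖ 0`;
* `exists_tw` : the normal is homotopic to the reflection of `h` in `refC`;
* `kform_hpair`, `kform_htw` : the hypotheses of the type theorem for `zetaK`.
-/

set_option linter.unusedSectionVars false

namespace Vale.Agent.P268.T.H73

open Set Filter Topology Metric
open scoped RealInnerProductSpace unitInterval
open Vale.Agent.P268.T.A109 Vale.Agent.P268.T.B4 Vale.Agent.P268.T.K372 Vale.Agent.P268.T.H981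
open Vale.Agent.P268.H288 (mx le_mx mx_le exists_mx)

section Cont

variable {n : ℕ} {δ d d' θ : ℝ} {G : (Fin (n + 1) → ℕ) → ℝ} {K L : Fin (n + 1) → ℕ}

theorem Chart.nField (C : Chart n δ d d') :
    NField δ (nuV δ : EuclideanSpace ℝ (Fin (n + 1)) → EuclideanSpace ℝ (Fin (n + 1))) where
  cont := continuousOn_nuV δ
  hom _ hr u := nuV_smul δ hr u
  ne _ hu := nuV_ne_zero C.δ_nonneg C.card_lt hu
  neg _ hu := nuV_nonpos_of_le fun j => (le_mx _ j).trans hu

theorem Chart.zero (C : Chart n δ d d') : Chart n δ d 0 where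
  hd := C.hd
  hdδ := C.hdδ
  hδ := C.hδ
  hd' := le_rfl
  hd'δ := C.δ_nonneg
  hc := by rw [zero_mul]; exact one_pos

/-- A chart, for every dimension. -/
theorem chart0 (n : ℕ) : Chart n (1 / (2 * (n + 1))) (1 / (4 * (n + 1))) 0 where
  hd := by positivity
  hdδ := le_of_eq (by field_simp; norm_num)
  hδ := by
    have h : (0 : ℝ) < n + 1 := by positivity
    push_cast
    rw [div_pow, one_pow, mul_one_div, div_lt_one (by positivity)]
    nlinarith
  hd' := le_rfl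
  hd'δ := by positivity
  hc := by rw [zero_mul]; exact one_pos

theorem continuous_posV' {ι : Type} [Fintype ι] [Nonempty ι] :
    Continuous (posV : EuclideanSpace ℝ ι → EuclideanSpace ℝ ι) :=
  continuous_of_coord fun j => by
    have : (fun x : EuclideanSpace ℝ ι => posV x j) = fun x => max (x j) 0 := by
      funext x; rw [posV_apply]
    rw [this]
    exact (continuous_coord j).max continuous_const

theorem continuousAt_rcF (C : Chart n δ d d')
    {c : EuclideanSpace ℝ (Fin (n + 1)) → EuclideanSpace ℝ (Fin (n + 1))} (x : Fin n → ℝ)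
    (hc : ContinuousAt c (usec n d x)) :
    ContinuousAt (fun x => rc (nuV δ) c (usec n d x)) x := by
  have hm : ContinuousAt (fun u => absDir (nuV δ u)) (usec n d x) :=
    (continuousOn_absDir C.nField).continuousAt (isOpen_ne.mem_nhds (usec_ne d x))
  have h1 : ContinuousAt (rc (nuV δ) c) (usec n d x) :=
    continuousAt_rot hm continuousAt_const hc (one_add_inner_absDir _).ne'
  exact h1.comp (f := usec n d) (continuous_usec d).continuousAt

theorem continuous_refF (C : Chart n δ d d') : Continuous (refF n δ d) :=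
  continuous_iff_continuousAt.mpr fun x => continuousAt_rcF C x continuous_posV'.continuousAt

theorem continuous_bF (C : Chart n δ d d') : Continuous (bF n δ d d' θ G K) :=
  continuous_iff_continuousAt.mpr fun x =>
    continuousAt_rcF C x (continuous_cV C.δ_nonneg C.hd' θ G K).continuousAt

theorem continuous_incF (C : Chart n δ d d') : Continuous (incF n δ d K L) := by
  refine continuous_iff_continuousAt.mpr fun x => continuousAt_rcF C x ?_
  have hn : ContinuousAt (nuV δ) (usec n d x) := continuousAt_nuV δ (usec_ne d x)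
  have ha : ContinuousAt (fun u => absV (nuV δ u)) (usec n d x) :=
    continuous_absV.continuousAt.comp hn
  have h0 : ‖absV (nuV δ (usec n d x))‖ ^ 2 ≠ 0 :=
    pow_ne_zero 2 (norm_ne_zero_iff.mpr (absV_ne (C.nu_ne x)))
  unfold incV
  exact continuousAt_const.sub (((ContinuousAt.inner (𝕜 := ℝ) continuousAt_const ha).div
    (ha.norm.pow 2) h0).smul ha)

theorem continuousAt_twF (C : Chart n δ d d') {X : Type*} [TopologicalSpace X] {s : X → ℝ}
    {x : X → Fin n → ℝ} (z : X) (hs : ContinuousAt s z) (hx : ContinuousAt x z)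
    (hx1 : ‖x z‖ ≤ 1) (hs1 : s z ∈ Icc (0 : ℝ) 1) :
    ContinuousAt (fun y => twF n δ d (s y) (x y)) z := by
  have hu : ContinuousAt (fun y => usec n d (x y)) z := (continuous_usec d).continuousAt.comp hx
  have hn : ContinuousAt (fun y => nuV δ (usec n d (x y))) z :=
    ContinuousAt.comp (g := nuV δ) (f := fun y => usec n d (x y))
      (continuousAt_nuV δ (usec_ne d (x z))) hu
  have hp : ContinuousAt (fun y => posV (usec n d (x y))) z :=
    ContinuousAt.comp (g := posV) (f := fun y => usec n d (x y))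
      continuous_posV'.continuousAt hu
  exact continuousAt_twRot hn hp hs (C.nu_ne _) (C.posV_usec_ne hx1) (twPath_usec_ne C hx1 hs1)

end Cont

section Inst

variable {n : ℕ} {δ d d' θ : ℝ} {G : (Fin (n + 1) → ℕ) → ℝ} {K L : Fin (n + 1) → ℕ}
  {V : Type*} [NormedAddCommGroup V] [InnerProductSpace ℝ V] (φ : Fr V)
  (A : EuclideanSpace ℝ (Fin (n + 1)) →ₗᵢ[ℝ] V)
  {Y : Type*} [TopologicalSpace Y] (u : C(Y, Fin n → ℝ))

/-- The reference field. -/
noncomputable def refC (C : Chart n δ d 0) (hu : ∀ q, ‖u q‖ ≤ 1) : C(Y, V0 V) where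
  toFun q := ⟨A (refF n δ d (u q)), (map_ne_zero_iff A A.injective).mpr (refF_ne C (hu q))⟩
  continuous_toFun :=
    Continuous.subtype_mk (A.continuous.comp ((continuous_refF C).comp u.continuous)) _

theorem refC_apply (C : Chart n δ d 0) (hu : ∀ q, ‖u q‖ ≤ 1) (q : Y) :
    (refC A u C hu q : V) = A (refF n δ d (u q)) := rfl

theorem A_flat (hA : A (eDiag (Fin (n + 1))) = φ.h) {v : EuclideanSpace ℝ (Fin (n + 1))}
    (hv : ⟪eDiag (Fin (n + 1)), v⟫ = 0) : ⟪φ.h, A v⟫ = 0 := by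
  rw [← hA, A.inner_map_map, hv]

theorem refC_mem (hA : A (eDiag (Fin (n + 1))) = φ.h) (C : Chart n δ d 0)
    (hu : ∀ q, ‖u q‖ ≤ 1) {q : Y} (hq : ‖u q‖ = 1) : refC A u C hu q ∈ φ.A0 :=
  A_flat φ A hA (refF_flat C hq)

/-- Reflections are carried to reflections. -/
theorem map_rf (v x : EuclideanSpace ℝ (Fin (n + 1))) : A (rf v x) = rf (A v) (A x) := by
  unfold rf
  rw [map_sub, map_smul, A.inner_map_map, A.inner_map_map]

/-- The straight homotopy. -/
theorem exists_seg (hA : A (eDiag (Fin (n + 1))) = φ.h) {B : Set Y}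
    {f g : Y → EuclideanSpace ℝ (Fin (n + 1))} (hf : Continuous f) (hg : Continuous g)
    (hne : ∀ q, ∀ s ∈ Icc (0 : ℝ) 1, (1 - s) • f q + s • g q ≠ 0)
    (hfB : ∀ q ∈ B, ⟪eDiag (Fin (n + 1)), f q⟫ = 0)
    (hgB : ∀ q ∈ B, ⟪eDiag (Fin (n + 1)), g q⟫ = 0) :
    ∃ D : C(I × Y, V), (∀ p, D p ≠ 0) ∧ (∀ q, D (0, q) = A (f q)) ∧
      (∀ s, ∀ q ∈ B, ⟪φ.h, D (s, q)⟫ = 0) ∧ ∀ q, D (1, q) = A (g q) := by
  refine ⟨⟨fun p => A ((1 - (p.1 : ℝ)) • f p.2 + (p.1 : ℝ) • g p.2), ?_⟩, ?_, ?_, ?_, ?_⟩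
  · exact A.continuous.comp (by fun_prop)
  · intro p
    exact (map_ne_zero_iff A A.injective).mpr (hne p.2 p.1 p.1.2)
  · intro q
    show A ((1 - ((0 : I) : ℝ)) • f q + ((0 : I) : ℝ) • g q) = A (f q)
    rw [show ((0 : I) : ℝ) = 0 from rfl, sub_zero, one_smul, zero_smul, add_zero]
  · intro s q hq
    refine A_flat φ A hA ?_
    rw [inner_add_right, inner_smul_right, inner_smul_right, hfB q hq, hgB q hq, mul_zero,
      mul_zero, add_zero]
  · intro q
    show A ((1 - ((1 : I) : ℝ)) • f q + ((1 : I) : ℝ) • g q) = A (g q)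
    rw [show ((1 : I) : ℝ) = 1 from rfl, sub_self, one_smul, zero_smul, zero_add]

/-- Smallness of `θ` for a pair. -/
def SmallP (n : ℕ) (θ : ℝ) (G : (Fin (n + 1) → ℕ) → ℝ) (K L : Fin (n + 1) → ℕ) : Prop :=
  4 * ((n : ℝ) + 1) ^ 2 * θ * |G L - G K| ≤ 1

theorem SmallP.symm (h : SmallP n θ G K L) : SmallP n θ G L K := by
  unfold SmallP at h ⊢
  rwa [abs_sub_comm]

theorem SmallP.small (h : SmallP n θ G K L) (hG : G K < G L) :
    4 * (Fintype.card (Fin (n + 1)) : ℝ) *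
      (θ * ((G L - G K) * Fintype.card (Fin (n + 1)))) ≤ 1 := by
  unfold SmallP at h
  rw [abs_of_pos (sub_pos.mpr hG)] at h
  rw [Fintype.card_fin]
  push_cast
  linarith

theorem diff_flat (C : Chart n δ d d') {x : Fin n → ℝ} (hx : ‖x‖ = 1) :
    ⟪eDiag (Fin (n + 1)), bF n δ d d' θ G L x - bF n δ d d' θ G K x⟫ = 0 := by
  rw [inner_sub_right, bF_flat C hx, bF_flat C hx, sub_self]

/-- **Comparable pairs.** -/
theorem exists_pair_le (hA : A (eDiag (Fin (n + 1))) = φ.h) (C : Chart n δ d d')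
    (C₀ : Chart n δ d 0) (hu : ∀ q, ‖u q‖ ≤ 1) {B : Set Y} (hB : ∀ q ∈ B, ‖u q‖ = 1)
    (hθ : 0 < θ) (hKL : K ≤ L) (hG : G K < G L) (hs : SmallP n θ G K L) :
    ∃ D : C(I × Y, V), (∀ p, D p ≠ 0) ∧
      (∀ q, D (0, q) = A (bF n δ d d' θ G L (u q)) - A (bF n δ d d' θ G K (u q))) ∧
      (∀ s, ∀ q ∈ B, ⟪φ.h, D (s, q)⟫ = 0) ∧ ∀ q, D (1, q) = refC A u C₀ hu q := by
  obtain ⟨D, h1, h2, h3, h4⟩ := exists_seg φ A hA (B := B)
    (f := fun q => bF n δ d d' θ G L (u q) - bF n δ d d' θ G K (u q))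
    (g := fun q => refF n δ d (u q))
    (((continuous_bF C).comp u.continuous).sub ((continuous_bF C).comp u.continuous))
    ((continuous_refF C).comp u.continuous)
    (fun q s h => seg_comparable C hθ hG hKL (hs.small hG) (hu q) h)
    (fun q hq => diff_flat C (hB q hq)) (fun q hq => refF_flat C (hB q hq))
  exact ⟨D, h1, fun q => (h2 q).trans (map_sub A _ _), h3, h4⟩

theorem exists_pair_inc_lt (hA : A (eDiag (Fin (n + 1))) = φ.h) (C : Chart n δ d d')
    (hu : ∀ q, ‖u q‖ ≤ 1) {B : Set Y} (hB : ∀ q ∈ B, ‖u q‖ = 1)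
    (hθ : 0 < θ) (hi : ∃ i, K i < L i) (hj : ∃ i, L i < K i) (hG : G K < G L)
    (hs : SmallP n θ G K L) :
    ∃ D : C(I × Y, V), (∀ p, D p ≠ 0) ∧
      (∀ q, D (0, q) = A (bF n δ d d' θ G L (u q)) - A (bF n δ d d' θ G K (u q))) ∧
      (∀ s, ∀ q ∈ B, ⟪φ.h, D (s, q)⟫ = 0) ∧ ∀ q, ⟪φ.h, D (1, q)⟫ = 0 := by
  obtain ⟨D, h1, h2, h3, h4⟩ := exists_seg φ A hA (B := B)
    (f := fun q => bF n δ d d' θ G L (u q) - bF n δ d d' θ G K (u q))
    (g := fun q => incF n δ d K L (u q))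
    (((continuous_bF C).comp u.continuous).sub ((continuous_bF C).comp u.continuous))
    ((continuous_incF C).comp u.continuous)
    (fun q s h => seg_incomparable C hθ hG hi hj (hs.small hG) (hu q) h)
    (fun q hq => diff_flat C (hB q hq)) (fun q _ => incF_flat C (u q))
  refine ⟨D, h1, fun q => (h2 q).trans (map_sub A _ _), h3, fun q => ?_⟩
  rw [h4 q]
  exact A_flat φ A hA (incF_flat C (u q))

/-- **Incomparable pairs.** -/
theorem exists_pair_inc (hA : A (eDiag (Fin (n + 1))) = φ.h) (C : Chart n δ d d')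
    (hu : ∀ q, ‖u q‖ ≤ 1) {B : Set Y} (hB : ∀ q ∈ B, ‖u q‖ = 1)
    (hθ : 0 < θ) (hi : ∃ i, K i < L i) (hj : ∃ i, L i < K i) (hG : G K ≠ G L)
    (hs : SmallP n θ G K L) :
    ∃ D : C(I × Y, V), (∀ p, D p ≠ 0) ∧
      (∀ q, D (0, q) = A (bF n δ d d' θ G L (u q)) - A (bF n δ d d' θ G K (u q))) ∧
      (∀ s, ∀ q ∈ B, ⟪φ.h, D (s, q)⟫ = 0) ∧ ∀ q, ⟪φ.h, D (1, q)⟫ = 0 := by
  rcases lt_or_gt_of_ne hG with h | h
  · exact exists_pair_inc_lt φ A u hA C hu hB hθ hi hj h hs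
  · obtain ⟨D, h1, h2, h3, h4⟩ := exists_pair_inc_lt φ A u hA C hu hB hθ hj hi h hs.symm
    refine ⟨-D, fun p => ?_, fun q => ?_, fun s q hq => ?_, fun q => ?_⟩
    · show -(D p) ≠ 0
      exact neg_ne_zero.mpr (h1 p)
    · show -(D (0, q)) = _
      rw [h2 q, neg_sub]
    · show ⟪φ.h, -(D (s, q))⟫ = 0
      rw [inner_neg_right, h3 s q hq, neg_zero]
    · show ⟪φ.h, -(D (1, q))⟫ = 0
      rw [inner_neg_right, h4 q, neg_zero]

/-- **The twist.** -/
theorem exists_tw (hA : A (eDiag (Fin (n + 1))) = φ.h) (C₀ : Chart n δ d 0)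
    (hu : ∀ q, ‖u q‖ ≤ 1) {B : Set Y} (hB : ∀ q ∈ B, ‖u q‖ = 1) :
    ∃ N : C(I × Y, S1 V), (∀ q, (N (0, q) : V) = A (nF n δ d (u q))) ∧
      (∀ q, (N (1, q) : V) = rf (refC A u C₀ hu q : V) φ.h) ∧
      ∀ s, ∀ q ∈ B, N (s, q) = φ.h1 := by
  refine ⟨⟨fun p => ⟨A (twF n δ d (p.1 : ℝ) (u p.2)), ?_⟩, ?_⟩, ?_, ?_, ?_⟩
  · rw [A.norm_map]
    exact norm_twF C₀ (hu p.2) p.1.2
  · refine Continuous.subtype_mk (A.continuous.comp ?_) _
    refine continuous_iff_continuousAt.mpr fun z => ?_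
    exact continuousAt_twF C₀ (s := fun p : I × Y => (p.1 : ℝ)) (x := fun p : I × Y => u p.2) z
      (by fun_prop) (by fun_prop) (hu z.2) z.1.2
  · intro q
    show A (twF n δ d ((0 : I) : ℝ) (u q)) = A (nF n δ d (u q))
    rw [show ((0 : I) : ℝ) = 0 from rfl, twF_zero C₀]
  · intro q
    show A (twF n δ d ((1 : I) : ℝ) (u q)) = rf (refC A u C₀ hu q : V) φ.h
    rw [show ((1 : I) : ℝ) = 1 from rfl, twF_one C₀ (hu q), map_rf, hA]
    rfl
  · intro s q hq
    refine Subtype.ext ?_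
    show A (twF n δ d (s : ℝ) (u q)) = φ.h
    rw [twF_flat C₀ (hB q hq), hA]

end Inst

section Zeta

theorem zetaK_reindex {S₀ ι ι' : Type} [Fintype ι] [Fintype ι'] {r : ℕ} (K : S₀ → ι → ℕ)
    (e : S₀ ≃ Fin r) (f : ι' ≃ ι) : zetaK (fun s j => K s (f j)) e = zetaK K e := by
  funext x y
  unfold zetaK
  have h : (∀ j, K (e.symm x) (f j) ≤ K (e.symm y) (f j)) ↔
      ∀ j, K (e.symm x) j ≤ K (e.symm y) j :=
    ⟨fun h j => by have := h (f.symm j); rwa [f.apply_symm_apply] at this, fun h j => h _⟩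
  exact if_congr h rfl rfl

theorem linExt_reindex {S₀ ι ι' : Type} {r : ℕ} {K : S₀ → ι → ℕ}
    {e : S₀ ≃ Fin r} (h : LinExt K e) (f : ι' ≃ ι) : LinExt (fun s j => K s (f j)) e :=
  fun x y hxy hne => h x y (fun j => by
    have := hxy (f.symm j)
    beta_reduce at this
    rwa [f.apply_symm_apply] at this) hne

theorem injective_reindex {S₀ ι ι' : Type} {K : S₀ → ι → ℕ} (hK : Function.Injective K)
    (f : ι' ≃ ι) : Function.Injective fun s j => K s (f j) := by
  intro x y h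
  refine hK (funext fun j => ?_)
  have := congrFun h (f.symm j)
  simpa using this

variable {S₀ ι : Type} [Fintype ι] {r : ℕ} {K : S₀ → ι → ℕ} {e : S₀ ≃ Fin r}

theorem zetaK_diag (i : Fin r) : zetaK K e i i = 1 := if_pos fun _ => le_rfl

theorem zetaK_low (he : LinExt K e) {i j : Fin r} (hij : i < j) : zetaK K e j i = 0 := by
  refine if_neg fun h => ?_
  have h1 := he (e.symm j) (e.symm i) h (fun h2 => hij.ne' (e.symm.injective h2))
  rw [e.apply_symm_apply, e.apply_symm_apply] at h1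
  exact absurd h1 hij.asymm

end Zeta

section Final

variable {n : ℕ} {δ d d' θ : ℝ} {G : (Fin (n + 1) → ℕ) → ℝ}
  {V : Type*} [NormedAddCommGroup V] [InnerProductSpace ℝ V] (φ : Fr V)
  (A : EuclideanSpace ℝ (Fin (n + 1)) →ₗᵢ[ℝ] V)
  {Y : Type*} [TopologicalSpace Y] (u : C(Y, Fin n → ℝ))
  {S₀ : Type} {r : ℕ} {K : S₀ → Fin (n + 1) → ℕ} {e : S₀ ≃ Fin r}

/-- **The pair homotopies of the K-form**, in the shape of the type theorem. -/
theorem kform_hpair (hA : A (eDiag (Fin (n + 1))) = φ.h) (C : Chart n δ d d')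
    (C₀ : Chart n δ d 0) (hu : ∀ q, ‖u q‖ ≤ 1) {B : Set Y} (hB : ∀ q ∈ B, ‖u q‖ = 1)
    (hθ : 0 < θ) (hK : Function.Injective K) (he : LinExt K e) (hG : StrictMono G)
    (hne : ∀ a b, a ≠ b → G (K a) ≠ G (K b)) (hs : ∀ a b, SmallP n θ G (K a) (K b))
    (i j : Fin r) (hij : i < j) :
    ∃ D : C(I × Y, V), (∀ p, D p ≠ 0) ∧
      (∀ q, D (0, q) = A (bF n δ d d' θ G (K (e.symm j)) (u q)) -
        A (bF n δ d d' θ G (K (e.symm i)) (u q))) ∧
      (∀ s, ∀ q ∈ B, ⟪φ.h, D (s, q)⟫ = 0) ∧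
      ((zetaK K e i j = 1 ∧ ∀ q, D (1, q) = refC A u C₀ hu q) ∨
        (zetaK K e i j = 0 ∧ ∀ q, ⟪φ.h, D (1, q)⟫ = 0)) := by
  have hij' : e.symm i ≠ e.symm j := fun h => hij.ne (e.symm.injective h)
  by_cases h : ∀ k, K (e.symm i) k ≤ K (e.symm j) k
  · have hlt : K (e.symm i) < K (e.symm j) :=
      lt_of_le_of_ne h fun h2 => hij' (hK h2)
    obtain ⟨D, h1, h2, h3, h4⟩ := exists_pair_le φ A u hA C C₀ hu hB hθ h (hG hlt) (hs _ _)
    exact ⟨D, h1, h2, h3, Or.inl ⟨if_pos h, h4⟩⟩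
  · have hi : ∃ k, K (e.symm i) k < K (e.symm j) k := by
      by_contra hcon
      push Not at hcon
      have h1 := he (e.symm j) (e.symm i) hcon hij'.symm
      rw [e.apply_symm_apply, e.apply_symm_apply] at h1
      exact absurd h1 hij.asymm
    have hj : ∃ k, K (e.symm j) k < K (e.symm i) k := by
      push Not at h
      exact h
    obtain ⟨D, h1, h2, h3, h4⟩ :=
      exists_pair_inc φ A u hA C hu hB hθ hi hj (hne _ _ hij') (hs _ _)
    exact ⟨D, h1, h2, h3, Or.inr ⟨if_neg h, h4⟩⟩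

/-- Existence of the parameters `G`, `θ`. -/
theorem exists_params [Finite S₀] (hK : Function.Injective K) :
    ∃ G : (Fin (n + 1) → ℕ) → ℝ, StrictMono G ∧ (∀ a b, a ≠ b → G (K a) ≠ G (K b)) ∧
      (∀ L, 0 ≤ G L) ∧ ∃ θ₀ > 0, ∀ θ, 0 ≤ θ → θ ≤ θ₀ → ∀ a b, SmallP n θ G (K a) (K b) := by
  obtain ⟨G, h1, h2, h3, -⟩ := exists_G_family hK
  obtain ⟨θ₀, h4, h5⟩ := exists_theta K G (4 * ((n : ℝ) + 1) ^ 2)
  exact ⟨G, h1, h2, h3, θ₀, h4, fun θ h6 h7 a b => h5 θ h6 h7 b a⟩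

end Final

end Vale.Agent.P268.T.H73
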