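import Vale.Agent.P268.T.H594.Lift
import Vale.Agent.P268.T.H548.Select
import Vale.Agent.P268.T.Polar

/-!
# P268, topological half, route V: regularity of `(‖z‖ - c) e^{iS(z)}`
-/

set_option linter.unusedSectionVars false

namespace Vale.Agent.P268.T.H73

open Set Filter Topology

/-- The function `(‖z‖ - c) e^{iS}` in the coordinate `log z`. -/
noncomputable def shiftM (A al c : ℝ) (ζ : ℂ) : ℂ :=
  ((Real.exp ζ.re - c : ℝ) : ℂ) * Complex.exp (Complex.I * ((A + al * ζ.im : ℝ) : ℂ))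

theorem regAt_shiftM {A al c₀ : ℝ} {ζ₀ : ℂ} (hal : al ≠ 0) (h : c₀ ≠ Real.exp ζ₀.re) :
    RegAt (univ : Set ℝ) (shiftM A al) c₀ ζ₀ := by
  have h1 : HasStrictFDerivAt (fun p : ℝ × ℂ => Real.exp p.2.re - p.1)
      (Real.exp ζ₀.re • (Complex.reCLM.comp (ContinuousLinearMap.snd ℝ ℝ ℂ)) -
        ContinuousLinearMap.fst ℝ ℝ ℂ) (c₀, ζ₀) := by
    have e1 : HasStrictFDerivAt (fun p : ℝ × ℂ => p.2.re)
        (Complex.reCLM.comp (ContinuousLinearMap.snd ℝ ℝ ℂ)) (c₀, ζ₀) :=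
      (Complex.reCLM.comp (ContinuousLinearMap.snd ℝ ℝ ℂ)).hasStrictFDerivAt
    exact e1.exp.sub (ContinuousLinearMap.fst ℝ ℝ ℂ).hasStrictFDerivAt
  have h2 : HasStrictFDerivAt (fun p : ℝ × ℂ => ((Real.exp p.2.re - p.1 : ℝ) : ℂ))
      (Complex.ofRealCLM.comp (Real.exp ζ₀.re • (Complex.reCLM.comp
        (ContinuousLinearMap.snd ℝ ℝ ℂ)) - ContinuousLinearMap.fst ℝ ℝ ℂ)) (c₀, ζ₀) :=
    Complex.ofRealCLM.hasStrictFDerivAt.comp (c₀, ζ₀) h1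
  have h3 : HasStrictFDerivAt (fun p : ℝ × ℂ => A + al * p.2.im)
      (al • (Complex.imCLM.comp (ContinuousLinearMap.snd ℝ ℝ ℂ))) (c₀, ζ₀) :=
    ((Complex.imCLM.comp (ContinuousLinearMap.snd ℝ ℝ ℂ)).hasStrictFDerivAt.const_mul
      al).const_add A
  have h4 : HasStrictFDerivAt (fun p : ℝ × ℂ => Complex.I * ((A + al * p.2.im : ℝ) : ℂ))
      (Complex.I • (Complex.ofRealCLM.comp (al • (Complex.imCLM.comp
        (ContinuousLinearMap.snd ℝ ℝ ℂ))))) (c₀, ζ₀) :=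
    (Complex.ofRealCLM.hasStrictFDerivAt.comp (c₀, ζ₀) h3).const_mul Complex.I
  have h5 := h2.mul h4.cexp
  refine RegAt.of_joint (F := shiftM A al) h5 fun w => ?_
  set E : ℂ := Complex.exp (Complex.I * ((A + al * ζ₀.im : ℝ) : ℂ)) with hE
  have hE0 : E ≠ 0 := Complex.exp_ne_zero _
  have hd : Real.exp ζ₀.re - c₀ ≠ 0 := sub_ne_zero.mpr h.symm
  have hex : Real.exp ζ₀.re ≠ 0 := (Real.exp_pos _).ne'
  refine ⟨⟨(w / E).re / Real.exp ζ₀.re, (w / E).im / ((Real.exp ζ₀.re - c₀) * al)⟩, ?_⟩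
  have e1 : (((Real.exp ζ₀.re * ((w / E).re / Real.exp ζ₀.re) : ℝ)) : ℂ) = (((w / E).re : ℝ) : ℂ) := by
    rw [mul_div_cancel₀ _ hex]
  have e2 : (((Real.exp ζ₀.re - c₀) * (al * ((w / E).im / ((Real.exp ζ₀.re - c₀) * al))) : ℝ) : ℂ) =
      (((w / E).im : ℝ) : ℂ) := by
    congr 1
    field_simp
  have e3 : E * ((((w / E).re : ℝ) : ℂ) + (((w / E).im : ℝ) : ℂ) * Complex.I) = w := by
    rw [Complex.re_add_im, mul_div_cancel₀ _ hE0]
  rw [← e1, ← e2] at e3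
  refine Eq.trans ?_ e3
  simp only [add_apply, smul_apply,
    ContinuousLinearMap.comp_apply, sub_apply, ContinuousLinearMap.coe_snd',
    ContinuousLinearMap.coe_fst', Complex.reCLM_apply, Complex.imCLM_apply,
    Complex.ofRealCLM_apply, smul_eq_mul, sub_zero]
  push_cast
  ring

/-- **Regularity of `(‖z‖ - c) e^{iS(z)}`.** -/
theorem regAt_shift {Θ : Type*} [TopologicalSpace Θ] {s : Set Θ} {c : Θ → ℝ} {t₀ : Θ}
    (ht₀ : t₀ ∈ s) (hc : ContinuousWithinAt c s t₀) {S : ℂ → ℝ} {al : ℝ} (hal : al ≠ 0)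
    {z₀ : ℂ} (hz₀ : z₀ ≠ 0) (hS : AngLift S al z₀) (h : c t₀ ≠ ‖z₀‖) :
    RegAt s (fun t z => ((‖z‖ - c t : ℝ) : ℂ) * Complex.exp (Complex.I * (S z : ℂ))) t₀ z₀ := by
  obtain ⟨U, hU, δ, hδ, hexp⟩ := hS.exp hz₀
  have hz₀U : z₀ ∈ U := mem_of_mem_nhds hU
  set ζ₀ : ℂ := Complex.log z₀ with hζ₀
  have hexp0 : Complex.exp ζ₀ = z₀ := Complex.exp_log hz₀
  have hn : Real.exp ζ₀.re = ‖z₀‖ := by rw [← Complex.norm_exp, hexp0]
  have key : RegAt s (fun t ζ => ((‖Complex.exp ζ‖ - c t : ℝ) : ℂ) *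
      Complex.exp (Complex.I * (S (Complex.exp ζ) : ℂ))) t₀ ζ₀ := by
    have h1 : RegAt s (fun t => shiftM (S z₀ - al * ζ₀.im) al (c t)) t₀ ζ₀ :=
      RegAt.param (φ := c) (F := shiftM (S z₀ - al * ζ₀.im) al) hc (fun _ _ => mem_univ _)
        (regAt_shiftM hal (by rw [hn]; exact h))
    refine h1.congr ⟨Metric.ball ζ₀ δ, Metric.ball_mem_nhds _ hδ,
      Eventually.of_forall fun t ζ hζ => ?_⟩
    have h2 : S (Complex.exp ζ) = S z₀ + al * (ζ - ζ₀).im := by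
      have h3 := hexp z₀ hz₀U (ζ - ζ₀) (by
        rw [Metric.mem_ball, dist_eq_norm] at hζ; exact hζ.le)
      rw [← h3, ← hexp0, ← Complex.exp_add, sub_add_cancel]
    show shiftM (S z₀ - al * ζ₀.im) al (c t) ζ = _
    rw [shiftM, h2, Complex.norm_exp, Complex.sub_im]
    congr 4
    ring
  have h3 := RegAt.of_exp (subset_closure ht₀) (F := fun t z => ((‖z‖ - c t : ℝ) : ℂ) *
    Complex.exp (Complex.I * (S z : ℂ))) key
  rwa [hexp0] at h3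

end Vale.Agent.P268.T.H73
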