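import Vale.Agent.P268.T.H69.Idx
import Vale.Agent.P268.T.H266.Phase
import Vale.Agent.P268.T.H73.Shift

/-!
# P268, topological half, route V: stage I of the planar families

`stI a t q z = (1 - t) Gam a q z + t realG (a + 1) .. q z` is a planar family (`planar_stI`), and its
real part is negative over the rests (`stI_neg`).
-/

set_option linter.unusedSectionVars false

namespace Vale.Agent.P268.T.H73

open Set Filter Topology

/-! ### Lipschitz functions on the circle -/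

/-- Functions of the angle which are Lipschitz on `[-π, π]`, bounded, and close up. -/
structure CircFn (g : ℝ → ℂ) (K M : ℝ) : Prop where
  K0 : 0 ≤ K
  lip : ∀ θ ∈ Icc (-Real.pi) Real.pi, ∀ θ' ∈ Icc (-Real.pi) Real.pi,
    ‖g θ - g θ'‖ ≤ K * |θ - θ'|
  cut : g (-Real.pi) = g Real.pi
  bd : ∀ θ, ‖g θ‖ ≤ M

theorem CircFn.M0 {g : ℝ → ℂ} {K M : ℝ} (h : CircFn g K M) : 0 ≤ M :=
  (norm_nonneg _).trans (h.bd 0)

theorem CircFn.lip_mul {g : ℝ → ℂ} {K M : ℝ} (h : CircFn g K M) {z z' : ℂ} {m m' : ℝ}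
    (h0 : 0 ≤ m) (h0' : 0 ≤ m') (h1 : m ≤ ‖z‖) (h1' : m' ≤ ‖z'‖) (hmm : |m - m'| ≤ ‖z - z'‖) :
    ‖(m : ℂ) * g (Complex.arg z) - (m' : ℂ) * g (Complex.arg z')‖ ≤
      (M + Real.pi * K) * ‖z - z'‖ := by
  have hM := h.M0
  have hK := h.K0
  have hpi := Real.pi_pos
  have hn := norm_nonneg (z - z')
  have hpk : 0 ≤ Real.pi * K * ‖z - z'‖ := by positivity
  by_cases hz' : z' = 0
  · subst hz'
    have e0 : m' = 0 := le_antisymm (by simpa using h1') h0'
    rw [e0, Complex.ofReal_zero, zero_mul, sub_zero, sub_zero, norm_mul, Complex.norm_real,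
      Real.norm_eq_abs, abs_of_nonneg h0]
    rw [sub_zero] at hpk
    calc m * ‖g (Complex.arg z)‖ ≤ ‖z‖ * M := mul_le_mul h1 (h.bd _) (norm_nonneg _) (norm_nonneg _)
      _ ≤ (M + Real.pi * K) * ‖z‖ := by linarith
  by_cases hz : z = 0
  · subst hz
    have e0 : m = 0 := le_antisymm (by simpa using h1) h0
    rw [e0, Complex.ofReal_zero, zero_mul, zero_sub, zero_sub, norm_neg, norm_neg, norm_mul,
      Complex.norm_real, Real.norm_eq_abs, abs_of_nonneg h0']
    rw [zero_sub, norm_neg] at hpk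
    calc m' * ‖g (Complex.arg z')‖ ≤ ‖z'‖ * M :=
          mul_le_mul h1' (h.bd _) (norm_nonneg _) (norm_nonneg _)
      _ ≤ (M + Real.pi * K) * ‖z'‖ := by linarith
  have e1 : (m : ℂ) * g (Complex.arg z) - (m' : ℂ) * g (Complex.arg z') =
      ((m - m' : ℝ) : ℂ) * g (Complex.arg z) +
        (m' : ℂ) * (g (Complex.arg z) - g (Complex.arg z')) := by
    push_cast; ring
  have e2 := RV.circ_lip hK h.lip h.cut hz hz'
  rw [e1]
  refine (norm_add_le _ _).trans ?_
  rw [norm_mul, norm_mul, Complex.norm_real, Complex.norm_real, Real.norm_eq_abs,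
    Real.norm_eq_abs, abs_of_nonneg h0']
  have e3 : |m - m'| * ‖g (Complex.arg z)‖ ≤ ‖z - z'‖ * M :=
    mul_le_mul hmm (h.bd _) (norm_nonneg _) hn
  have e4 : m' * ‖g (Complex.arg z) - g (Complex.arg z')‖ ≤ Real.pi * K * ‖z - z'‖ :=
    (mul_le_mul_of_nonneg_right h1' (norm_nonneg _)).trans e2
  linarith

theorem CircFn.continuousAt {g : ℝ → ℂ} {K M : ℝ} (h : CircFn g K M) {z : ℂ} (hz : z ≠ 0) :
    ContinuousAt (fun w : ℂ => g (Complex.arg w)) z := by
  have hz' : 0 < ‖z‖ := norm_pos_iff.mpr hz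
  rw [ContinuousAt, tendsto_iff_norm_sub_tendsto_zero]
  have h1 : ∀ᶠ w : ℂ in 𝓝 z, ‖g (Complex.arg w) - g (Complex.arg z)‖ ≤
      Real.pi * K / ‖z‖ * ‖w - z‖ := by
    filter_upwards [isOpen_ne.mem_nhds hz] with w hw
    have := RV.circ_lip h.K0 h.lip h.cut hw hz
    rw [div_mul_eq_mul_div, le_div_iff₀ hz']
    linarith
  have h2 : Tendsto (fun w : ℂ => Real.pi * K / ‖z‖ * ‖w - z‖) (𝓝 z) (𝓝 0) := by
    have h3 : Continuous fun w : ℂ => Real.pi * K / ‖z‖ * ‖w - z‖ := by fun_prop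
    have := h3.tendsto z
    simpa using this
  exact squeeze_zero' (Eventually.of_forall fun _ => norm_nonneg _) h1 h2

theorem CircFn.continuous_mul {g : ℝ → ℂ} {K M : ℝ} (h : CircFn g K M) {X : Type*}
    [TopologicalSpace X] {m : X → ℝ} {w : X → ℂ} (hm : Continuous m) (hw : Continuous w)
    (hmw : ∀ x, |m x| ≤ ‖w x‖) : Continuous fun x => (m x : ℂ) * g (Complex.arg (w x)) := by
  rw [continuous_iff_continuousAt]
  intro x
  by_cases h0 : w x = 0
  · have hm0 : m x = 0 := abs_eq_zero.mp (le_antisymm (by simpa [h0] using hmw x) (abs_nonneg _))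
    have hv : (m x : ℂ) * g (Complex.arg (w x)) = 0 := by rw [hm0, Complex.ofReal_zero, zero_mul]
    rw [ContinuousAt, hv]
    refine squeeze_zero_norm (a := fun y => ‖w y‖ * M) (fun y => ?_) ?_
    · rw [norm_mul, Complex.norm_real, Real.norm_eq_abs]
      exact mul_le_mul (hmw y) (h.bd _) (norm_nonneg _) (norm_nonneg _)
    · have h1 : Continuous fun y => ‖w y‖ * M := hw.norm.mul continuous_const
      have := h1.tendsto x
      rwa [h0, norm_zero, zero_mul] at this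
  · exact (Complex.continuous_ofReal.continuousAt.comp hm.continuousAt).mul
      (ContinuousAt.comp (g := fun w : ℂ => g (Complex.arg w)) (f := w) (h.continuousAt h0)
        hw.continuousAt)

/-! ### The circle functions of the stage -/

/-- The loop of the profile. -/
noncomputable def f1 (a : ℕ) (θ : ℝ) : ℂ := eP (P0 (a + 1) θ)

/-- The loop without the last turn. -/
noncomputable def f2 (a : ℕ) (θ : ℝ) : ℂ :=
  RV.eI (min (RV.prof (a + 1) θ) ((2 * a + 1) * Real.pi))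

/-- The last turn. -/
noncomputable def g2 (a : ℕ) (θ : ℝ) : ℂ := ((eta (a + 1) (P0 (a + 1) θ) : ℝ) : ℂ)

theorem norm_eP (p : ℝ) : ‖eP p‖ = 1 := by
  rw [eP_eq_eI, RV.eI, mul_comm, Complex.norm_exp_ofReal_mul_I]

theorem norm_eI (p : ℝ) : ‖RV.eI p‖ = 1 := by
  rw [RV.eI, mul_comm, Complex.norm_exp_ofReal_mul_I]

theorem eP_lip (p q : ℝ) : ‖eP p - eP q‖ ≤ 2 * Real.pi * |p - q| := by
  rw [eP_eq_eI, eP_eq_eI]
  refine (RV.eI_lip _ _).trans (le_of_eq ?_)
  rw [← mul_sub, abs_mul, abs_of_pos (by positivity : (0 : ℝ) < 2 * Real.pi)]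

theorem P0_cut (A : ℕ) : P0 A Real.pi = P0 A (-Real.pi) + A := by
  have := P0_add A (-Real.pi)
  rwa [show -Real.pi + 2 * Real.pi = Real.pi by ring] at this

/-- The Lipschitz constant of the profile. -/
noncomputable def cA (a : ℕ) : ℝ := 2 * a + 3

theorem cA_pos (a : ℕ) : 0 < cA a := by unfold cA; positivity

theorem two_pi_P0_lip (a : ℕ) (x y : ℝ) :
    2 * Real.pi * |P0 (a + 1) x - P0 (a + 1) y| ≤ cA a * |x - y| := by
  have hpi := Real.pi_pos
  have h1 := P0_lip (a + 1) x y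
  have e : (2 * ((a + 1 : ℕ) : ℝ) + 1) / (2 * Real.pi) = cA a / (2 * Real.pi) := by
    unfold cA; push_cast; ring
  rw [e] at h1
  calc 2 * Real.pi * |P0 (a + 1) x - P0 (a + 1) y|
      ≤ 2 * Real.pi * (cA a / (2 * Real.pi) * |x - y|) :=
        mul_le_mul_of_nonneg_left h1 (by positivity)
    _ = cA a * |x - y| := by field_simp

theorem circFn_f1 (a : ℕ) : CircFn (f1 a) (cA a) 1 where
  K0 := (cA_pos a).le
  lip x _ y _ := (eP_lip _ _).trans (two_pi_P0_lip a x y)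
  cut := by
    unfold f1
    rw [P0_cut]
    have := eP_add_int (P0 (a + 1) (-Real.pi)) ((a + 1 : ℕ) : ℤ)
    rw [← this]
    norm_num
  bd θ := (norm_eP _).le

theorem prof_lip (a : ℕ) {x y : ℝ} (hx : x ∈ Icc (-Real.pi) Real.pi)
    (hy : y ∈ Icc (-Real.pi) Real.pi) :
    |RV.prof (a + 1) x - RV.prof (a + 1) y| ≤ cA a * |x - y| := by
  have h1 := P0_prof (A := a + 1) hx.1 hx.2
  have h2 := P0_prof (A := a + 1) hy.1 hy.2
  have e : RV.prof (a + 1) x - RV.prof (a + 1) y =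
      2 * Real.pi * (P0 (a + 1) x - P0 (a + 1) y) := by linarith
  rw [e, abs_mul, abs_of_pos (by positivity : (0 : ℝ) < 2 * Real.pi)]
  exact two_pi_P0_lip a x y

theorem eI_last (a : ℕ) : RV.eI ((2 * a + 1) * Real.pi) = -1 := RV.eI_odd a

theorem circFn_f2 (a : ℕ) : CircFn (f2 a) (cA a) 1 where
  K0 := (cA_pos a).le
  lip x hx y hy := by
    refine (RV.eI_lip _ _).trans ((abs_min_sub_min_le_max _ _ _ _).trans ?_)
    rw [sub_self, abs_zero]
    exact max_le (prof_lip a hx hy) (mul_nonneg (cA_pos a).le (abs_nonneg _))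
  cut := by
    have hpi := Real.pi_pos
    have ha : (0 : ℝ) ≤ a := by positivity
    unfold f2
    rw [RV.prof_neg_pi, RV.prof_pi, min_eq_left (by nlinarith), min_eq_right (by
      push_cast; nlinarith), eI_last, RV.eI_pi]
  bd θ := (norm_eI _).le

theorem circFn_g1 (a : ℕ) : CircFn (fun θ => f2 a θ - f1 a θ) (2 * cA a) 2 where
  K0 := by have := cA_pos a; positivity
  lip x hx y hy := by
    have h1 := (circFn_f1 a).lip x hx y hy
    have h2 := (circFn_f2 a).lip x hx y hy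
    have e : f2 a x - f1 a x - (f2 a y - f1 a y) = (f2 a x - f2 a y) - (f1 a x - f1 a y) := by
      ring
    rw [e]
    refine (norm_sub_le _ _).trans ?_
    linarith
  cut := by rw [(circFn_f1 a).cut, (circFn_f2 a).cut]
  bd θ := (norm_sub_le _ _).trans (by
    have h1 := (circFn_f1 a).bd θ
    have h2 := (circFn_f2 a).bd θ
    linarith)

theorem circFn_g2 (a : ℕ) : CircFn (g2 a) (cA a) 1 where
  K0 := (cA_pos a).le
  lip x _ y _ := by
    unfold g2
    rw [← Complex.ofReal_sub, Complex.norm_real, Real.norm_eq_abs]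
    refine (eta_lip (a + 1) (Nat.succ_pos a) _ _).trans ?_
    have h1 := two_pi_P0_lip a x y
    have h2 : 0 ≤ |P0 (a + 1) x - P0 (a + 1) y| := abs_nonneg _
    have h3 := Real.pi_gt_three
    nlinarith
  cut := by
    unfold g2
    rw [P0_cut]
    have := eta_add (A := a + 1) (Nat.succ_pos a) (P0 (a + 1) (-Real.pi)) 1
    rw [← this]
    norm_num
  bd θ := by
    unfold g2
    rw [Complex.norm_real, Real.norm_eq_abs, abs_of_nonneg (eta_nonneg _ _)]
    exact eta_le_one _ _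

/-! ### The family -/

/-- The family of stage I. -/
noncomputable def stI (a : ℕ) (t q : ℝ) (z : ℂ) : ℂ :=
  (1 - t) • RV.Gam a q z +
    t • realG (a + 1) (fun _ θ => eP (P0 (a + 1) θ)) (fun _ => P0 (a + 1)) t q z

theorem stI_zero (a : ℕ) (q : ℝ) (z : ℂ) : stI a 0 q z = RV.Gam a q z := by
  rw [stI, sub_zero, one_smul, zero_smul, add_zero]

theorem stI_one (a : ℕ) (q : ℝ) (z : ℂ) :
    stI a 1 q z = realG (a + 1) (fun _ θ => eP (P0 (a + 1) θ)) (fun _ => P0 (a + 1)) 1 q z := by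
  rw [stI, sub_self, zero_smul, one_smul, zero_add]

theorem stI_eq (a : ℕ) (t q : ℝ) (z : ℂ) :
    stI a t q z = ((‖z‖ : ℝ) : ℂ) * f1 a (Complex.arg z) +
      (1 - t : ℝ) * (((min q ‖z‖ : ℝ) : ℂ) * (f2 a (Complex.arg z) - f1 a (Complex.arg z))) -
      (2 * t : ℝ) * (((min q ‖z‖ : ℝ) : ℂ) * g2 a (Complex.arg z)) := by
  have e1 : RV.eI (RV.Vph a z) = f1 a (Complex.arg z) := (eP_P0 (a + 1) z).symm
  unfold stI RV.Gam realG pol
  rw [e1]
  simp only [Complex.real_smul]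
  unfold f1 f2 g2 RV.Vph
  push_cast
  ring

theorem min_lip (q : ℝ) (z z' : ℂ) : |min q ‖z‖ - min q ‖z'‖| ≤ ‖z - z'‖ := by
  refine (abs_min_sub_min_le_max _ _ _ _).trans ?_
  rw [sub_self, abs_zero]
  exact max_le (norm_nonneg _) (abs_norm_sub_norm_le _ _)

theorem stI_lip (a : ℕ) {t : ℝ} (ht : t ∈ Icc (0 : ℝ) 1) {q : ℝ} (hq : 0 ≤ q) (z z' : ℂ) :
    ‖stI a t q z - stI a t q z'‖ ≤ (3 + 3 * Real.pi * cA a) * ‖z - z'‖ := by
  have hc := cA_pos a
  have h1 := (circFn_f1 a).lip_mul (norm_nonneg z) (norm_nonneg z') le_rfl le_rfl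
    (abs_norm_sub_norm_le z z')
  have m0 : ∀ w : ℂ, 0 ≤ min q ‖w‖ := fun w => le_min hq (norm_nonneg _)
  have h2 := (circFn_g1 a).lip_mul (m0 z) (m0 z') (min_le_right _ _) (min_le_right _ _)
    (min_lip q z z')
  have h3 := (circFn_g2 a).lip_mul (m0 z) (m0 z') (min_le_right _ _) (min_le_right _ _)
    (min_lip q z z')
  rw [stI_eq, stI_eq]
  have e : ∀ A B C A' B' C' : ℂ, A + (1 - t : ℝ) * B - (2 * t : ℝ) * C -
      (A' + (1 - t : ℝ) * B' - (2 * t : ℝ) * C') =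
      (A - A') + (1 - t : ℝ) * (B - B') - (2 * t : ℝ) * (C - C') := by
    intro A B C A' B' C'; ring
  rw [e]
  refine (norm_sub_le _ _).trans ?_
  refine (add_le_add (norm_add_le _ _) le_rfl).trans ?_
  rw [norm_mul, norm_mul, Complex.norm_real, Complex.norm_real, Real.norm_eq_abs,
    Real.norm_eq_abs, abs_of_nonneg (sub_nonneg.mpr ht.2), abs_of_nonneg (by linarith [ht.1])]
  have h4 := mul_le_mul_of_nonneg_left h2 (sub_nonneg.mpr ht.2)
  have h5 := mul_le_mul_of_nonneg_left h3 (by linarith [ht.1] : 0 ≤ 2 * t)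
  refine (add_le_add (add_le_add h1 h4) h5).trans (le_of_eq ?_)
  ring

theorem continuousOn_stI (a : ℕ) :
    ContinuousOn (fun p : ℝ × (ℝ × ℂ) => stI a p.1 p.2.1 p.2.2)
      (Icc (0 : ℝ) 1 ×ˢ (Ici 0 ×ˢ univ)) := by
  have c1 := (circFn_f1 a).continuous_mul (X := ℝ × (ℝ × ℂ)) (m := fun p => ‖p.2.2‖)
    (w := fun p => p.2.2) (by fun_prop) (by fun_prop) (fun p => by rw [abs_norm])
  have hm : ∀ p : ℝ × (ℝ × ℂ), |min (max p.2.1 0) ‖p.2.2‖| ≤ ‖p.2.2‖ := fun p => by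
    rw [abs_of_nonneg (le_min (le_max_right _ _) (norm_nonneg _))]
    exact min_le_right _ _
  have c2 := (circFn_g1 a).continuous_mul (X := ℝ × (ℝ × ℂ))
    (m := fun p => min (max p.2.1 0) ‖p.2.2‖) (w := fun p => p.2.2) (by fun_prop) (by fun_prop) hm
  have c3 := (circFn_g2 a).continuous_mul (X := ℝ × (ℝ × ℂ))
    (m := fun p => min (max p.2.1 0) ‖p.2.2‖) (w := fun p => p.2.2) (by fun_prop) (by fun_prop) hm
  have c4 : Continuous fun p : ℝ × (ℝ × ℂ) =>
      ((‖p.2.2‖ : ℝ) : ℂ) * f1 a (Complex.arg p.2.2) +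
      (1 - p.1 : ℝ) * (((min (max p.2.1 0) ‖p.2.2‖ : ℝ) : ℂ) *
        (f2 a (Complex.arg p.2.2) - f1 a (Complex.arg p.2.2))) -
      (2 * p.1 : ℝ) * (((min (max p.2.1 0) ‖p.2.2‖ : ℝ) : ℂ) * g2 a (Complex.arg p.2.2)) :=
    (c1.add ((Complex.continuous_ofReal.comp (by fun_prop)).mul c2)).sub
      ((Complex.continuous_ofReal.comp (by fun_prop)).mul c3)
  refine c4.continuousOn.congr fun p hp => ?_
  have hq : 0 ≤ p.2.1 := hp.2.1
  show stI a p.1 p.2.1 p.2.2 = ((‖p.2.2‖ : ℝ) : ℂ) * f1 a (Complex.arg p.2.2) +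
      (1 - p.1 : ℝ) * (((min (max p.2.1 0) ‖p.2.2‖ : ℝ) : ℂ) *
        (f2 a (Complex.arg p.2.2) - f1 a (Complex.arg p.2.2))) -
      (2 * p.1 : ℝ) * (((min (max p.2.1 0) ‖p.2.2‖ : ℝ) : ℂ) * g2 a (Complex.arg p.2.2))
  rw [stI_eq, max_eq_left hq]

theorem stI_hom (a : ℕ) {t r : ℝ} (hr : 0 ≤ r) (q : ℝ) (z : ℂ) :
    stI a t (r * q) (r • z) = r • stI a t q z := by
  rcases hr.eq_or_lt with h0 | hr'
  · rw [← h0, zero_mul, zero_smul, zero_smul, stI_eq, norm_zero, min_self]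
    simp
  · have e1 : Complex.arg (r • z) = Complex.arg z := by
      rw [Complex.real_smul, Complex.arg_real_mul _ hr']
    have e2 : ‖r • z‖ = r * ‖z‖ := by rw [norm_smul, Real.norm_eq_abs, abs_of_pos hr']
    rw [stI_eq, stI_eq, e1, e2, ← mul_min_of_nonneg _ _ hr]
    rw [Complex.real_smul]
    push_cast
    ring

theorem f1_re_neg {a : ℕ} {θ : ℝ} (h : 3 / 10 ≤ dZ (P0 (a + 1) θ)) : (f1 a θ).re < 0 :=
  cos_neg_of_dZ h

theorem f2_cases (a : ℕ) (z : ℂ) :
    (2 * Real.pi * P0 (a + 1) (Complex.arg z) + 2 * Real.pi ≤ (2 * a + 1) * Real.pi ∧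
      f2 a (Complex.arg z) = f1 a (Complex.arg z)) ∨
    ((2 * a + 1) * Real.pi ≤ 2 * Real.pi * P0 (a + 1) (Complex.arg z) + 2 * Real.pi ∧
      f2 a (Complex.arg z) = -1) := by
  have h1 := P0_arg (a + 1) z
  have e1 : RV.prof (a + 1) (Complex.arg z) =
      2 * Real.pi * P0 (a + 1) (Complex.arg z) + 2 * Real.pi := by linarith
  rcases le_total (RV.prof (a + 1) (Complex.arg z)) ((2 * a + 1) * Real.pi) with h | h
  · left
    refine ⟨by rwa [← e1], ?_⟩
    rw [f2, min_eq_left h, f1, eP_P0]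
  · right
    refine ⟨by rwa [← e1], ?_⟩
    rw [f2, min_eq_right h, eI_last]

theorem stI_re (a : ℕ) (t q : ℝ) (z : ℂ) :
    (stI a t q z).re = (‖z‖ - (1 - t) * min q ‖z‖) * (f1 a (Complex.arg z)).re +
      (1 - t) * min q ‖z‖ * (f2 a (Complex.arg z)).re -
      2 * t * (min q ‖z‖ * eta (a + 1) (P0 (a + 1) (Complex.arg z))) := by
  rw [stI_eq]
  unfold g2
  rw [Complex.sub_re, Complex.add_re, Complex.re_ofReal_mul, Complex.re_ofReal_mul,
    Complex.re_ofReal_mul, Complex.re_ofReal_mul, Complex.re_ofReal_mul, Complex.sub_re,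
    Complex.ofReal_re]
  ring

/-- **The real part is negative over the rests.** -/
theorem stI_neg {a : ℕ} {t : ℝ} (ht : t ∈ Icc (0 : ℝ) 1) {z : ℂ} (hz : z ≠ 0)
    (h : 3 / 10 ≤ dZ (P0 (a + 1) (Complex.arg z))) {q : ℝ} (hq : 0 ≤ q) :
    (stI a t q z).re < 0 := by
  have hz' : 0 < ‖z‖ := norm_pos_iff.mpr hz
  have h1 := f1_re_neg (a := a) h
  have h2 : (f2 a (Complex.arg z)).re < 0 := by
    rcases f2_cases a z with ⟨-, e⟩ | ⟨-, e⟩
    · rw [e]; exact h1
    · rw [e]; norm_num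
  have m0 : 0 ≤ min q ‖z‖ := le_min hq hz'.le
  have m1 : min q ‖z‖ ≤ ‖z‖ := min_le_right _ _
  have t0 := ht.1
  have t1 : 0 ≤ 1 - t := sub_nonneg.mpr ht.2
  have h3 : 0 ≤ 2 * t * (min q ‖z‖ * eta (a + 1) (P0 (a + 1) (Complex.arg z))) := by
    have := eta_nonneg (a + 1) (P0 (a + 1) (Complex.arg z))
    positivity
  have h4 : (1 - t) * min q ‖z‖ ≤ ‖z‖ :=
    (mul_le_of_le_one_left m0 (by linarith)).trans m1
  rw [stI_re]
  have h5 : (1 - t) * min q ‖z‖ * (f2 a (Complex.arg z)).re ≤ 0 :=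
    mul_nonpos_of_nonneg_of_nonpos (mul_nonneg t1 m0) h2.le
  have h6 : (‖z‖ - (1 - t) * min q ‖z‖) * (f1 a (Complex.arg z)).re ≤ 0 :=
    mul_nonpos_of_nonneg_of_nonpos (by linarith) h1.le
  rcases h4.lt_or_eq with h7 | h7
  · have : (‖z‖ - (1 - t) * min q ‖z‖) * (f1 a (Complex.arg z)).re < 0 :=
      mul_neg_of_pos_of_neg (by linarith) h1
    linarith
  · have : (1 - t) * min q ‖z‖ * (f2 a (Complex.arg z)).re < 0 := by
      rw [h7]
      exact mul_neg_of_pos_of_neg hz' h2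
    linarith

/-! ### Regularity -/

/-- The range of the index function. -/
theorem P0_arg_mem (a : ℕ) (z : ℂ) :
    -(1 / 2) ≤ P0 (a + 1) (Complex.arg z) ∧ P0 (a + 1) (Complex.arg z) ≤ a + 1 / 2 := by
  have hpi := Real.pi_pos
  have h1 := P0_arg (a + 1) z
  have h2 := RV.pi_le_Vph a z
  have h3 := RV.Vph_le a z
  unfold RV.Vph at h2 h3
  constructor
  · by_contra hcon
    push Not at hcon
    nlinarith
  · by_contra hcon
    push Not at hcon
    nlinarith

/-- On the turns: the index, and continuity of the argument. -/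
theorem exists_turn {a : ℕ} {z : ℂ} (hz : z ≠ 0) (h : dZ (P0 (a + 1) (Complex.arg z)) < 3 / 10) :
    ∃ k : ℕ, k ≤ a ∧ ∀ᶠ w in 𝓝 z, |P0 (a + 1) (Complex.arg w) - k| ≤ 3 / 10 := by
  have hpi := Real.pi_pos
  obtain ⟨n, hn⟩ := exists_int_of_dZ_lt h
  obtain ⟨h1, h2⟩ := P0_arg_mem a z
  obtain ⟨h3, h4⟩ := abs_lt.mp hn
  have n0 : 0 ≤ n := by
    by_contra hcon
    have : (n : ℝ) ≤ -1 := by exact_mod_cast (by omega : n ≤ -1)
    linarith
  obtain ⟨k, rfl⟩ := Int.eq_ofNat_of_zero_le n0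
  have hka : k ≤ a := by
    by_contra hcon
    have : (a : ℝ) + 1 ≤ k := by exact_mod_cast (by omega : a + 1 ≤ k)
    have e : (((k : ℕ) : ℤ) : ℝ) = k := by simp
    rw [e] at h3
    linarith
  have e : (((k : ℕ) : ℤ) : ℝ) = k := by simp
  rw [e] at hn h3 h4
  have hka' : (k : ℝ) ≤ a := by exact_mod_cast hka
  -- not on the cut
  have hcut : Complex.arg z ≠ Real.pi := by
    intro hc
    have h5 := P0_arg (a + 1) z
    rw [hc, RV.prof_pi] at h5
    rw [hc] at h4
    push_cast at h5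
    have h6 : P0 (a + 1) Real.pi = a + 1 / 2 := by
      have : 2 * Real.pi * P0 (a + 1) Real.pi = 2 * Real.pi * (a + 1 / 2) := by linarith
      exact mul_left_cancel₀ (by positivity) this
    linarith
  have hs : z ∈ Complex.slitPlane := Complex.mem_slitPlane_iff_arg.mpr ⟨hcut, hz⟩
  have hc : ContinuousAt (fun w => |P0 (a + 1) (Complex.arg w) - k|) z :=
    (((continuous_P0 (a + 1)).continuousAt.comp (Complex.continuousAt_arg hs)).sub
      continuousAt_const).abs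
  refine ⟨k, hka, ?_⟩
  filter_upwards [hc.eventually (gt_mem_nhds hn)] with w hw
  exact hw.le

/-- The local phase. -/
theorem local_phase {a : ℕ} {z : ℂ} (hz : z ≠ 0)
    (h : dZ (P0 (a + 1) (Complex.arg z)) < 3 / 10) :
    ∃ S : ℂ → ℝ, AngLift S (cA a) z ∧
      ∀ᶠ w in 𝓝 z, f1 a (Complex.arg w) = Complex.exp (Complex.I * (S w : ℂ)) := by
  have hpi := Real.pi_pos
  obtain ⟨δ, hδ, hsl⟩ := P0_slope (A := a + 1) (θ₀ := Complex.arg z) (by linarith)
  have e0 : Complex.arg (z / z) = 0 := by rw [div_self hz, Complex.arg_one]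
  refine ⟨fun w => 2 * Real.pi * P0 (a + 1) (Complex.arg z) + cA a * Complex.arg (w / z), ?_, ?_⟩
  · refine Eventually.of_forall fun w => ?_
    show _ = 2 * Real.pi * P0 (a + 1) (Complex.arg z) + cA a * Complex.arg (z / z) + _
    rw [e0, mul_zero, add_zero]
  · filter_upwards [eventually_arg_small hz hδ, isOpen_ne.mem_nhds hz] with w hw hw0
    have per : Function.Periodic (f1 a) (2 * Real.pi) := fun θ => by
      unfold f1
      rw [P0_add]
      have := eP_add_int (P0 (a + 1) θ) ((a + 1 : ℕ) : ℤ)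
      rw [← this]
      norm_num
    have h1 : f1 a (Complex.arg w) = f1 a (Complex.arg z + Complex.arg (w / z)) := by
      have h2 := pol_eq (f := f1 a) per hz hw0
      rw [pol] at h2
      have hn : (‖w‖ : ℝ) ≠ 0 := norm_ne_zero_iff.mpr hw0
      exact smul_right_injective ℂ hn h2
    have h2 := hsl (Complex.arg z) (Complex.arg z + Complex.arg (w / z)) (by simpa using hδ)
      (by simpa using hw)
    have h3 : P0 (a + 1) (Complex.arg z + Complex.arg (w / z)) =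
        P0 (a + 1) (Complex.arg z) + cA a / (2 * Real.pi) * Complex.arg (w / z) := by
      have e : (2 * ((a + 1 : ℕ) : ℝ) + 1) / (2 * Real.pi) = cA a / (2 * Real.pi) := by
        unfold cA; push_cast; ring
      rw [e] at h2
      linarith
    rw [h1, f1, h3, eP_eq_eI, RV.eI]
    congr 3
    field_simp

/-- **Regularity.** -/
theorem stI_reg {a : ℕ} {t : ℝ} (ht : t ∈ Icc (0 : ℝ) 1) {q : ℝ} (hq : 0 ≤ q) {z : ℂ}
    (hz : z ≠ 0) (h0 : 0 ≤ (stI a t q z).re) :
    RegAt (Icc (0 : ℝ) 1 ×ˢ Ici (0 : ℝ)) (fun (p : ℝ × ℝ) z => stI a p.1 p.2 z) (t, q) z := by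
  have hpi := Real.pi_pos
  have hz' : 0 < ‖z‖ := norm_pos_iff.mpr hz
  have hd : dZ (P0 (a + 1) (Complex.arg z)) < 3 / 10 := by
    by_contra hcon
    exact absurd (stI_neg ht hz (not_lt.mp hcon) hq) (not_lt.mpr h0)
  obtain ⟨k, hka, hk⟩ := exists_turn hz hd
  obtain ⟨S, hS, hf1⟩ := local_phase hz hd
  have hcA : cA a ≠ 0 := (cA_pos a).ne'
  have hmem : (t, q) ∈ Icc (0 : ℝ) 1 ×ˢ Ici (0 : ℝ) := ⟨ht, hq⟩
  rcases hka.lt_or_eq with hlt | heq
  · -- one of the first turns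
    have hreg : RegAt (Icc (0 : ℝ) 1 ×ˢ Ici (0 : ℝ))
        (fun (_ : ℝ × ℝ) w => ((‖w‖ - 0 : ℝ) : ℂ) * Complex.exp (Complex.I * (S w : ℂ))) (t, q) z :=
      regAt_shift (c := fun _ => 0) hmem continuousWithinAt_const hcA hz hS hz'.ne
    refine hreg.congr ⟨_, inter_mem hk hf1, Eventually.of_forall fun p w hw => ?_⟩
    obtain ⟨hw1, hw2⟩ := hw
    have hw1 : |P0 (a + 1) (Complex.arg w) - k| ≤ 3 / 10 := hw1
    have hw2 : f1 a (Complex.arg w) = Complex.exp (Complex.I * (S w : ℂ)) := hw2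
    have e1 : g2 a (Complex.arg w) = 0 := by
      rw [g2, eta_zero (Nat.succ_pos a) (k := k) (by omega) hw1, Complex.ofReal_zero]
    have e2 : f2 a (Complex.arg w) = f1 a (Complex.arg w) := by
      rcases f2_cases a w with ⟨-, e⟩ | ⟨e, -⟩
      · exact e
      · exfalso
        have h1 : (k : ℝ) + 1 ≤ a := by exact_mod_cast hlt
        have h2 := (abs_le.mp hw1).2
        nlinarith
    rw [stI_eq, e1, e2, sub_self, mul_zero, mul_zero, mul_zero, hw2, sub_zero]
    simp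
  · -- the last turn
    have hev : ∀ᶠ w in 𝓝 z, f2 a (Complex.arg w) = -1 ∧ g2 a (Complex.arg w) = 1 := by
      filter_upwards [hk] with w hw
      constructor
      · rcases f2_cases a w with ⟨e, -⟩ | ⟨-, e⟩
        · exfalso
          have h2 := (abs_le.mp hw).1
          rw [heq] at h2
          nlinarith
        · exact e
      · rw [g2, eta_one (Nat.succ_pos a) (k := k) (by omega) hw, Complex.ofReal_one]
    have hq1 : q < ‖z‖ := by
      by_contra hcon
      push Not at hcon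
      obtain ⟨e1, e2⟩ := hev.self_of_nhds
      have e3 : eta (a + 1) (P0 (a + 1) (Complex.arg z)) = 1 := by
        have := e2
        rw [g2] at this
        exact_mod_cast this
      rw [stI_re, e1, e3, min_eq_right hcon] at h0
      have h1 : (f1 a (Complex.arg z)).re ≤ 1 :=
        (Complex.re_le_norm _).trans ((circFn_f1 a).bd _)
      have h2 : (-1 : ℂ).re = -1 := by norm_num
      rw [h2] at h0
      have h3 : t * ‖z‖ * (f1 a (Complex.arg z)).re ≤ t * ‖z‖ * 1 :=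
        mul_le_mul_of_nonneg_left h1 (mul_nonneg ht.1 hz'.le)
      nlinarith
    have hc : ContinuousWithinAt (fun p : ℝ × ℝ => (1 - p.1) * p.2)
        (Icc (0 : ℝ) 1 ×ˢ Ici (0 : ℝ)) (t, q) := by
      exact (by fun_prop : Continuous fun p : ℝ × ℝ => (1 - p.1) * p.2).continuousWithinAt
    have hne : (1 - t) * q ≠ ‖z‖ := by
      have : (1 - t) * q ≤ q := mul_le_of_le_one_left hq (by linarith [ht.1])
      exact (this.trans_lt hq1).ne
    have hreg := (regAt_shift (c := fun p : ℝ × ℝ => (1 - p.1) * p.2) hmem hc hcA hz hS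
      hne).add_const fun p : ℝ × ℝ => ((-((1 + p.1) * p.2) : ℝ) : ℂ)
    have hn : ∀ᶠ w : ℂ in 𝓝 z, (q + ‖z‖) / 2 < ‖w‖ :=
      continuous_norm.continuousAt.eventually (lt_mem_nhds (by linarith))
    refine hreg.congr ⟨_, inter_mem (inter_mem hev hf1) hn, ?_⟩
    have hq2 : ∀ᶠ p : ℝ × ℝ in 𝓝[Icc (0 : ℝ) 1 ×ˢ Ici (0 : ℝ)] (t, q), p.2 < (q + ‖z‖) / 2 :=
      nhdsWithin_le_nhds (continuousAt_snd.eventually (gt_mem_nhds (by show q < _; linarith)))
    filter_upwards [hq2] with p hp w hw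
    obtain ⟨⟨⟨hw1, hw2⟩, hw3⟩, hw4⟩ := hw
    have hw3 : f1 a (Complex.arg w) = Complex.exp (Complex.I * (S w : ℂ)) := hw3
    have hw4 : (q + ‖z‖) / 2 < ‖w‖ := hw4
    rw [stI_eq, hw1, hw2, hw3, min_eq_left (by linarith)]
    push_cast
    ring

/-- **Stage I is a planar family.** -/
theorem planar_stI (a : ℕ) : Planar (Icc (0 : ℝ) 1) 1 (3 + 3 * Real.pi * cA a) (stI a) where
  cpos := one_pos
  cont := continuousOn_stI a
  hom t _ r hr q _ z := stI_hom a hr q z
  zero t _ q hq := by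
    have := stI_hom a (t := t) (r := 0) le_rfl q 0
    rw [zero_smul, zero_smul, zero_mul] at this
    rw [stI_eq, norm_zero, min_eq_right hq]
    simp
  lip t ht q hq z z' := stI_lip a ht hq z z'
  sat t _ q z h := by
    rw [one_mul] at h ⊢
    rw [stI_eq, stI_eq, min_eq_right h, min_self]
  reg t ht q hq z hz h0 := stI_reg ht hq hz h0

end Vale.Agent.P268.T.H73
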