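import Vale.Agent.P268.T.H73.KTwist
import Vale.Agent.P268.T.B4.Sec921
import Vale.Agent.P268.T.H981.Pair3

/-!
# P268, topological half, block B4c: the class homotopies of the K-form on the cube

Chart: `u = usec n d x`, `x : Fin n → ℝ`, `‖x‖ ≤ 1`.  Sheets `c_K = cV δ d' θ G K`, normal
`nuV δ`, rotated by `rc`, `rn`.  Reference field `refF δ d x = rc (nuV δ) posV (usec n d x)`
(independent of all `K`, of `θ`, `G` and `d'`).

* `seg_comparable` : `K ≤ L`: the segment from `b_L - b_K` to the reference field;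
* `seg_incomparable` : the segment from `b_L - b_K` to a field in `e^⊥`;
* `twF` : path of unit normals from `rn` to `rf (refF) e`.
-/

set_option linter.unusedSectionVars false

namespace Vale.Agent.P268.T.H73

open Set Filter Topology Metric
open scoped RealInnerProductSpace
open Vale.Agent.P268.T.A109 Vale.Agent.P268.T.B4 Vale.Agent.P268.T.K372 Vale.Agent.P268.T.H981
open Vale.Agent.P268.H288 (mx le_mx mx_le exists_mx)

section U

variable {ι : Type} [Fintype ι] [Nonempty ι]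

theorem posV_ne {u : EuclideanSpace ℝ ι} {j : ι} (h : 0 < u j) : posV u ≠ 0 := by
  intro h0
  have := posV_eq_zero.mp h0 j
  linarith

theorem posV_nonneg (u : EuclideanSpace ℝ ι) (j : ι) : 0 ≤ posV u j := le_max_right _ _

theorem posV_eq_zero_of_nuV_neg {δ : ℝ} (hδ : 0 ≤ δ) {u : EuclideanSpace ℝ ι} {j : ι}
    (h : nuV δ u j < 0) : posV u j = 0 := by
  rw [posV_apply]
  refine max_eq_right ?_
  by_contra hc
  push Not at hc
  have : 0 ≤ nuV δ u j := nuV_nonneg hδ (by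
    have := mul_nonneg hδ (norm_nonneg u)
    linarith)
  linarith

theorem posV_pos_of_nuV_pos {δ : ℝ} (hδ : 0 ≤ δ) {u : EuclideanSpace ℝ ι} {j : ι}
    (h : 0 < nuV δ u j) : 0 < posV u j := by
  rw [posV_apply]
  have h1 := (nuV_pos_iff hδ).1 h
  have h2 := mul_nonneg hδ (norm_nonneg u)
  exact lt_max_of_lt_left (by linarith)

theorem inner_posV_nuV {δ : ℝ} (hδ : 0 ≤ δ) {u : EuclideanSpace ℝ ι}
    (hf : ∀ j, u j ≤ δ * ‖u‖) : ⟪nuV δ u, posV u⟫ = 0 := by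
  rw [H73.inner_eq]
  refine Finset.sum_eq_zero fun j _ => ?_
  rcases (nuV_nonpos_of_le hf j).lt_or_eq with h | h
  · rw [posV_eq_zero_of_nuV_neg hδ h, mul_zero]
  · rw [h, zero_mul]

theorem exists_pos {d : ℝ} (hd : 0 ≤ d) {u : EuclideanSpace ℝ ι} (h : d * ‖u‖ < mx u.ofLp) :
    ∃ j, d * ‖u‖ < u j ∧ 0 < u j := by
  obtain ⟨j, hj⟩ := exists_mx u.ofLp
  have h1 : d * ‖u‖ < u j := by rw [hj] at h; exact h
  exact ⟨j, h1, lt_of_le_of_lt (mul_nonneg hd (norm_nonneg u)) h1⟩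

end U

section Rc

variable {ι : Type} [Fintype ι] [Nonempty ι]

theorem rc_ne_zero {nu c : EuclideanSpace ℝ ι → EuclideanSpace ℝ ι} {u : EuclideanSpace ℝ ι}
    (hn : nu u ≠ 0) (hc : c u ≠ 0) : rc nu c u ≠ 0 := by
  unfold rc
  rw [← norm_ne_zero_iff, norm_rot (norm_absDir hn) norm_eDiag (one_add_inner_absDir _).ne']
  exact norm_ne_zero_iff.mpr hc

/-- The segment of rotated fields is the rotated segment. -/
theorem rc_seg (nu c₁ c₂ c₃ : EuclideanSpace ℝ ι → EuclideanSpace ℝ ι)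
    (u : EuclideanSpace ℝ ι) (s : ℝ) :
    (1 - s) • (rc nu c₁ u - rc nu c₂ u) + s • rc nu c₃ u =
      rc nu (fun u => (1 - s) • (c₁ u - c₂ u) + s • c₃ u) u := by
  unfold rc
  rw [rot_add, rot_smul, rot_smul, rot_sub]

theorem inner_eDiag_rc {nu c : EuclideanSpace ℝ ι → EuclideanSpace ℝ ι} {u : EuclideanSpace ℝ ι}
    (hn : nu u ≠ 0) : ⟪eDiag ι, rc nu c u⟫ = ‖nu u‖⁻¹ * ⟪absV (nu u), c u⟫ := by
  have h1 := rot_left (norm_absDir hn) (one_add_inner_absDir (nu u)).ne'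
  unfold rc
  nth_rewrite 1 [← h1]
  rw [inner_rot (norm_absDir hn) norm_eDiag (one_add_inner_absDir _).ne', inner_absDir]

end Rc

section Cube

variable {n : ℕ} {δ d d' θ : ℝ} {G : (Fin (n + 1) → ℕ) → ℝ} {K L : Fin (n + 1) → ℕ}

/-- The parameters of the chart. -/
structure Chart (n : ℕ) (δ d d' : ℝ) : Prop where
  hd : 0 < d
  hdδ : 2 * d ≤ δ
  hδ : ((n + 1 : ℕ) : ℝ) * δ ^ 2 < 1
  hd' : 0 ≤ d'
  hd'δ : d' ≤ δ
  hc : d' * (Real.sqrt (n + 1) * (1 + 1 / d)) < 1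

namespace Chart

variable (C : Chart n δ d d')

include C

theorem δ_nonneg : 0 ≤ δ := by linarith [C.hd, C.hdδ]

theorem card_lt : Fintype.card (Fin (n + 1)) * δ ^ 2 < 1 := by
  rw [Fintype.card_fin]; exact C.hδ

theorem nu_ne (x : Fin n → ℝ) : nuV δ (usec n d x) ≠ 0 :=
  nuV_ne_zero C.δ_nonneg C.card_lt (usec_ne d x)

theorem dist {x : Fin n → ℝ} (hx : ‖x‖ ≤ 1) :
    d' * ‖usec n d x‖ < mx (usec n d x).ofLp := usec_dist C.hd C.hd' C.hc hx

theorem exists_pos {x : Fin n → ℝ} (hx : ‖x‖ ≤ 1) :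
    ∃ j, d' * ‖usec n d x‖ < usec n d x j ∧ 0 < usec n d x j := H73.exists_pos C.hd' (C.dist hx)

theorem posV_usec_ne {x : Fin n → ℝ} (hx : ‖x‖ ≤ 1) : posV (usec n d x) ≠ 0 := by
  obtain ⟨j, _, h⟩ := C.exists_pos hx
  exact posV_ne h

theorem flat {x : Fin n → ℝ} (hx : ‖x‖ = 1) (j : Fin (n + 1)) :
    usec n d x j ≤ δ * ‖usec n d x‖ := by
  refine (le_mx _ j).trans ((usec_flat C.hd.le hx).trans ?_)
  exact mul_le_mul_of_nonneg_right C.hdδ (norm_nonneg _)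

theorem mx_flat {x : Fin n → ℝ} (hx : ‖x‖ = 1) :
    mx (usec n d x).ofLp ≤ δ * ‖usec n d x‖ := mx_le.mpr (C.flat hx)

end Chart

/-- The reference field. -/
noncomputable def refF (n : ℕ) (δ d : ℝ) (x : Fin n → ℝ) : EuclideanSpace ℝ (Fin (n + 1)) :=
  rc (nuV δ) posV (usec n d x)

/-- The rotated sheets. -/
noncomputable def bF (n : ℕ) (δ d d' θ : ℝ) (G : (Fin (n + 1) → ℕ) → ℝ) (K : Fin (n + 1) → ℕ)
    (x : Fin n → ℝ) : EuclideanSpace ℝ (Fin (n + 1)) :=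
  rc (nuV δ) (cV δ d' θ G K) (usec n d x)

/-- The rotated normal. -/
noncomputable def nF (n : ℕ) (δ d : ℝ) (x : Fin n → ℝ) : EuclideanSpace ℝ (Fin (n + 1)) :=
  rn (nuV δ) (usec n d x)

theorem refF_ne (C : Chart n δ d d') {x : Fin n → ℝ} (hx : ‖x‖ ≤ 1) : refF n δ d x ≠ 0 :=
  rc_ne_zero (C.nu_ne x) (C.posV_usec_ne hx)

theorem refF_flat (C : Chart n δ d d') {x : Fin n → ℝ} (hx : ‖x‖ = 1) :
    ⟪eDiag (Fin (n + 1)), refF n δ d x⟫ = 0 := by
  rw [refF, inner_eDiag_rc (C.nu_ne x), absV_of_nonpos (nuV_nonpos_of_le (C.flat hx)),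
    inner_posV_nuV C.δ_nonneg (C.flat hx), mul_zero]

theorem bF_flat (C : Chart n δ d d') {x : Fin n → ℝ} (hx : ‖x‖ = 1) :
    ⟪eDiag (Fin (n + 1)), bF n δ d d' θ G K x⟫ = 0 := by
  rw [bF, inner_eDiag_rc (C.nu_ne x), absV_of_nonpos (nuV_nonpos_of_le (C.flat hx)),
    real_inner_comm, inner_cV_nuV_eq_zero C.δ_nonneg d' θ G K (C.flat hx), mul_zero]

/-- **Comparable sheets.** -/
theorem seg_comparable (C : Chart n δ d d') (hθ : 0 < θ) (hG : G K < G L) (hKL : K ≤ L)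
    (hsmall : 4 * (Fintype.card (Fin (n + 1)) : ℝ) *
      (θ * ((G L - G K) * Fintype.card (Fin (n + 1)))) ≤ 1)
    {x : Fin n → ℝ} (hx : ‖x‖ ≤ 1) {s : ℝ} (hs : s ∈ Icc (0 : ℝ) 1) :
    (1 - s) • (bF n δ d d' θ G L x - bF n δ d d' θ G K x) + s • refF n δ d x ≠ 0 := by
  unfold bF refF
  rw [rc_seg]
  refine rc_ne_zero (C.nu_ne x) ?_
  intro h0
  obtain ⟨j, hj, hj0⟩ := C.exists_pos hx
  have h1 := sum_pair_pos C.δ_nonneg C.card_lt C.hd' C.hd'δ hθ hG hKL hsmall ⟨j, hj⟩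
  have h2 : 0 < ∑ k, posV (usec n d x) k :=
    Finset.sum_pos' (fun k _ => posV_nonneg _ k) ⟨j, Finset.mem_univ _, by
      rw [posV_apply]; exact lt_max_of_lt_left hj0⟩
  have h3 : (1 - s) * ∑ k, (cV δ d' θ G L (usec n d x) - cV δ d' θ G K (usec n d x)) k +
      s * ∑ k, posV (usec n d x) k = 0 := by
    rw [Finset.mul_sum, Finset.mul_sum, ← Finset.sum_add_distrib]
    refine Finset.sum_eq_zero fun k _ => ?_
    have := congrArg (fun z : EuclideanSpace ℝ (Fin (n + 1)) => z k) h0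
    exact this
  rcases hs.1.lt_or_eq with h4 | h4
  · have := mul_pos h4 h2
    have := mul_nonneg (sub_nonneg.mpr hs.2) h1.le
    linarith
  · rw [← h4] at h3
    linarith

/-- The end field of the homotopy of an incomparable pair. -/
noncomputable def incV (δ : ℝ) (K L : Fin (n + 1) → ℕ) (u : EuclideanSpace ℝ (Fin (n + 1))) :
    EuclideanSpace ℝ (Fin (n + 1)) :=
  Yv K L - (⟪Yv K L, absV (nuV δ u)⟫ / ‖absV (nuV δ u)‖ ^ 2) • absV (nuV δ u)

/-- The rotated end field. -/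
noncomputable def incF (n : ℕ) (δ d : ℝ) (K L : Fin (n + 1) → ℕ) (x : Fin n → ℝ) :
    EuclideanSpace ℝ (Fin (n + 1)) :=
  rc (nuV δ) (incV δ K L) (usec n d x)

theorem absV_ne {w : EuclideanSpace ℝ (Fin (n + 1))} (h : w ≠ 0) : absV w ≠ 0 := by
  rw [← norm_ne_zero_iff, norm_absV]; exact norm_ne_zero_iff.mpr h

theorem incF_flat (C : Chart n δ d d') (x : Fin n → ℝ) :
    ⟪eDiag (Fin (n + 1)), incF n δ d K L x⟫ = 0 := by
  have h := C.nu_ne x
  have h2 : ‖absV (nuV δ (usec n d x))‖ ^ 2 ≠ 0 :=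
    pow_ne_zero 2 (norm_ne_zero_iff.mpr (absV_ne h))
  rw [incF, inner_eDiag_rc h, incV, inner_sub_right, inner_smul_right,
    real_inner_self_eq_norm_sq, div_mul_cancel₀ _ h2, real_inner_comm, sub_self, mul_zero]

theorem inner_incV_pos (C : Chart n δ d d') (h1 : ∃ i, K i < L i) (h2 : ∃ i, L i < K i)
    (x : Fin n → ℝ) : 0 < ⟪Yv K L, incV δ K L (usec n d x)⟫ := by
  obtain ⟨i, hi⟩ := h1
  obtain ⟨j, hj⟩ := h2
  refine inner_proj_pos_of_mixed (fun k => ?_) ⟨i, ?_⟩ ⟨j, Yv_neg_of_lt hj⟩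
    (absV_ne (C.nu_ne x))
  · rw [absV_apply]; exact neg_nonpos.mpr (abs_nonneg _)
  · rw [Yv_apply_of_le hi.le]; exact one_pos

/-- **Incomparable sheets.** -/
theorem seg_incomparable (C : Chart n δ d d') (hθ : 0 < θ) (hG : G K < G L)
    (h1 : ∃ i, K i < L i) (h2 : ∃ i, L i < K i)
    (hsmall : 4 * (Fintype.card (Fin (n + 1)) : ℝ) *
      (θ * ((G L - G K) * Fintype.card (Fin (n + 1)))) ≤ 1)
    {x : Fin n → ℝ} (hx : ‖x‖ ≤ 1) {s : ℝ} (hs : s ∈ Icc (0 : ℝ) 1) :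
    (1 - s) • (bF n δ d d' θ G L x - bF n δ d d' θ G K x) + s • incF n δ d K L x ≠ 0 := by
  unfold bF incF
  rw [rc_seg]
  refine rc_ne_zero (C.nu_ne x) ?_
  intro h0
  obtain ⟨j, hj, -⟩ := C.exists_pos hx
  have h3 := inner_pair_pos C.δ_nonneg C.card_lt C.hd' C.hd'δ hθ hG h1 hsmall ⟨j, hj⟩
  have h4 := inner_incV_pos C h1 h2 x
  have h5 : (1 - s) * ⟪Yv K L, cV δ d' θ G L (usec n d x) - cV δ d' θ G K (usec n d x)⟫ +
      s * ⟪Yv K L, incV δ K L (usec n d x)⟫ = 0 := by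
    rw [← inner_smul_right, ← inner_smul_right, ← inner_add_right]
    have h6 : (1 - s) • (cV δ d' θ G L (usec n d x) - cV δ d' θ G K (usec n d x)) +
      s • incV δ K L (usec n d x) = 0 := h0
    rw [h6, inner_zero_right]
  rcases hs.1.lt_or_eq with h7 | h7
  · have := mul_pos h7 h4
    have := mul_nonneg (sub_nonneg.mpr hs.2) h3.le
    linarith
  · rw [← h7] at h5
    linarith

theorem incF_ne (C : Chart n δ d d') (h1 : ∃ i, K i < L i) (h2 : ∃ i, L i < K i)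
    (x : Fin n → ℝ) : incF n δ d K L x ≠ 0 := by
  refine rc_ne_zero (C.nu_ne x) ?_
  intro h0
  have := inner_incV_pos C h1 h2 x
  rw [h0, inner_zero_right] at this
  exact lt_irrefl _ this

/-! ### The twist -/

/-- The path of unit normals. -/
noncomputable def twF (n : ℕ) (δ d : ℝ) (s : ℝ) (x : Fin n → ℝ) :
    EuclideanSpace ℝ (Fin (n + 1)) :=
  twRot (nuV δ (usec n d x)) (posV (usec n d x)) s

theorem twPath_usec_ne (C : Chart n δ d d') {x : Fin n → ℝ} (hx : ‖x‖ ≤ 1) {s : ℝ}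
    (hs : s ∈ Icc (0 : ℝ) 1) : twPath (nuV δ (usec n d x)) (posV (usec n d x)) s ≠ 0 :=
  twPath_ne (C.nu_ne x) (C.posV_usec_ne hx) (posV_nonneg _)
    (fun _ h => posV_eq_zero_of_nuV_neg C.δ_nonneg h)
    (fun _ h => posV_pos_of_nuV_pos C.δ_nonneg h) hs

theorem norm_twF (C : Chart n δ d d') {x : Fin n → ℝ} (hx : ‖x‖ ≤ 1) {s : ℝ}
    (hs : s ∈ Icc (0 : ℝ) 1) : ‖twF n δ d s x‖ = 1 :=
  norm_twRot (C.nu_ne x) (twPath_usec_ne C hx hs)

theorem twF_zero (C : Chart n δ d d') (x : Fin n → ℝ) : twF n δ d 0 x = nF n δ d x :=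
  twRot_zero (C.nu_ne x)

theorem twF_one (C : Chart n δ d d') {x : Fin n → ℝ} (hx : ‖x‖ ≤ 1) :
    twF n δ d 1 x = rf (refF n δ d x) (eDiag (Fin (n + 1))) :=
  twRot_one (C.nu_ne x) (C.posV_usec_ne hx)

theorem twF_flat (C : Chart n δ d d') {x : Fin n → ℝ} (hx : ‖x‖ = 1) (s : ℝ) :
    twF n δ d s x = eDiag (Fin (n + 1)) :=
  twRot_flat (C.nu_ne x) (nuV_nonpos_of_le (C.flat hx))
    (fun _ h => posV_eq_zero_of_nuV_neg C.δ_nonneg h) s

end Cube

end Vale.Agent.P268.T.H73
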