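import Vale.Agent.P268.T.B4.Data921
import Vale.Agent.P268.T.A109.Defs

/-!
# P268, topological half, block B4c: the twist of the sheets of the K-form

`h = absDir n = -|n|/‖n‖`, `p ≥ 0` a nonzero vector with `p j = 0` where `n j < 0` and `0 < p j`
where `0 < n j`.  The unit vectors `rf p h` and `n / ‖n‖` are never opposite, and equal if
`n ≤ 0`.  After the rotation `rot h e` they become `rf (rot h e p) e` (the form `psiMap`) and the
rotated normal `rn`.
-/

set_option linter.unusedSectionVars false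

namespace Vale.Agent.P268.T.H73

open Set Filter Topology
open scoped RealInnerProductSpace
open Vale.Agent.P268.T.A109 Vale.Agent.P268.T.B4
open Vale.Agent.P268.H288 (mx)

section General

variable {V : Type*} [NormedAddCommGroup V] [InnerProductSpace ℝ V]

/-- Two vectors of the same length which are not opposite are joined by a segment without `0`. -/
theorem seg_ne_of_norm_eq {x y : V} (h : ‖x‖ = ‖y‖) (hy : y ≠ 0) (hxy : x + y ≠ 0) {s : ℝ}
    (hs : s ∈ Icc (0 : ℝ) 1) : (1 - s) • x + s • y ≠ 0 := by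
  intro h0
  have h1 : (1 - s) • x = -(s • y) := eq_neg_of_add_eq_zero_left h0
  have h2 : (1 - s) * ‖x‖ = s * ‖y‖ := by
    have := congrArg norm h1
    rwa [norm_neg, norm_smul, norm_smul, Real.norm_eq_abs, Real.norm_eq_abs,
      abs_of_nonneg (sub_nonneg.mpr hs.2), abs_of_nonneg hs.1] at this
  have h3 : 0 < ‖y‖ := norm_pos_iff.mpr hy
  rw [h] at h2
  have h4 : s = 1 / 2 := by
    have : (1 - 2 * s) * ‖y‖ = 0 := by linarith
    linarith [(mul_eq_zero.mp this).resolve_right h3.ne']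
  rw [h4, show (1 : ℝ) - 1 / 2 = 1 / 2 by norm_num, ← smul_add] at h0
  exact hxy ((smul_eq_zero.mp h0).resolve_left (by norm_num))

theorem rf_smul {c : ℝ} (hc : c ≠ 0) (v x : V) : rf (c • v) x = rf v x := by
  by_cases hv : v = 0
  · subst hv; simp [rf]
  have hvv : ⟪v, v⟫ ≠ 0 := inner_self_ne_zero.mpr hv
  unfold rf
  rw [inner_smul_right, inner_smul_right, inner_smul_left, RCLike.conj_to_real, smul_smul]
  congr 2
  field_simp

/-- Rotations carry reflections to reflections. -/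
theorem rot_rf {a b : V} (ha : ‖a‖ = 1) (hb : ‖b‖ = 1) (h : 1 + ⟪a, b⟫ ≠ 0) (v x : V) :
    rot a b (rf v x) = rf (rot a b v) (rot a b x) := by
  unfold rf
  rw [inner_rot ha hb h, inner_rot ha hb h, rot_sub, rot_smul]

end General

variable {ι : Type} [Fintype ι] [Nonempty ι]

theorem inner_absDir (w v : EuclideanSpace ℝ ι) :
    ⟪absDir w, v⟫ = ‖w‖⁻¹ * ⟪absV w, v⟫ := by
  rw [absDir, inner_smul_left, RCLike.conj_to_real]

theorem inner_eq (v w : EuclideanSpace ℝ ι) : ⟪v, w⟫ = ∑ j, v j * w j := by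
  rw [PiLp.inner_apply]
  refine Finset.sum_congr rfl fun j _ => ?_
  simp [mul_comm]

/-- Never opposite. -/
theorem add_ne_zero_of {n p : EuclideanSpace ℝ ι} (hn : n ≠ 0) (hp : p ≠ 0)
    (h1 : ∀ j, 0 ≤ p j) (h2 : ∀ j, n j < 0 → p j = 0) (h3 : ∀ j, 0 < n j → 0 < p j) :
    rf p (absDir n) + ‖n‖⁻¹ • n ≠ 0 := by
  have hnn : 0 < ‖n‖ := norm_pos_iff.mpr hn
  have hpp : 0 < ⟪p, p⟫ := by
    rw [real_inner_self_eq_norm_sq]; exact pow_pos (norm_pos_iff.mpr hp) 2
  by_cases hle : ∀ j, n j ≤ 0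
  · have e1 : absDir n = ‖n‖⁻¹ • n := absDir_of_nonpos hle
    have e2 : ⟪n, p⟫ = 0 := by
      rw [inner_eq]
      refine Finset.sum_eq_zero fun j _ => ?_
      rcases (hle j).lt_or_eq with h | h
      · rw [h2 j h, mul_zero]
      · rw [h, zero_mul]
    have e3 : rf p (absDir n) = ‖n‖⁻¹ • n := by
      rw [rf_of_inner_eq_zero, e1]
      rw [e1, inner_smul_left, e2, mul_zero]
    rw [e3, ← two_smul ℝ]
    exact smul_ne_zero two_ne_zero (smul_ne_zero (inv_ne_zero hnn.ne') hn)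
  · push Not at hle
    obtain ⟨i, hi⟩ := hle
    intro h0
    have hpi := h3 i hi
    -- products with `n⁺`
    have e1 : ⟪absV n, posV n⟫ + ⟪n, posV n⟫ = 0 := by
      rw [inner_eq, inner_eq, ← Finset.sum_add_distrib]
      refine Finset.sum_eq_zero fun j _ => ?_
      rw [absV_apply, posV_apply]
      rcases le_total (n j) 0 with h | h
      · rw [max_eq_right h]; ring
      · rw [max_eq_left h, abs_of_nonneg h]; ring
    have e2 : ⟪absV n, p⟫ < 0 := by
      rw [inner_eq]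
      refine Finset.sum_neg' (fun j _ => ?_) ⟨i, Finset.mem_univ _, ?_⟩
      · rw [absV_apply]
        exact mul_nonpos_of_nonpos_of_nonneg (neg_nonpos.mpr (abs_nonneg _)) (h1 j)
      · rw [absV_apply]
        exact mul_neg_of_neg_of_pos (neg_neg_of_pos (abs_pos.mpr hi.ne')) hpi
    have e3 : 0 < ⟪p, posV n⟫ := by
      rw [inner_eq]
      refine Finset.sum_pos' (fun j _ => mul_nonneg (h1 j) (le_max_right _ _))
        ⟨i, Finset.mem_univ _, ?_⟩
      rw [posV_apply, max_eq_left hi.le]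
      exact mul_pos hpi hi
    have e4 : ⟪rf p (absDir n) + ‖n‖⁻¹ • n, posV n⟫ =
        -(2 * (‖n‖⁻¹ * ⟪absV n, p⟫ / ⟪p, p⟫)) * ⟪p, posV n⟫ := by
      unfold rf
      rw [inner_add_left, inner_sub_left, inner_smul_left, inner_smul_left, inner_absDir,
        inner_absDir, RCLike.conj_to_real, RCLike.conj_to_real]
      linear_combination ‖n‖⁻¹ * e1
    rw [h0, inner_zero_left] at e4
    have e5 : ‖n‖⁻¹ * ⟪absV n, p⟫ / ⟪p, p⟫ < 0 :=
      div_neg_of_neg_of_pos (mul_neg_of_pos_of_neg (inv_pos.mpr hnn) e2) hpp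
    nlinarith [mul_pos (neg_pos.mpr e5) e3]

/-- The path of normals before the rotation. -/
noncomputable def twPath (n p : EuclideanSpace ℝ ι) (s : ℝ) : EuclideanSpace ℝ ι :=
  (1 - s) • (‖n‖⁻¹ • n) + s • rf p (absDir n)

theorem twPath_ne {n p : EuclideanSpace ℝ ι} (hn : n ≠ 0) (hp : p ≠ 0)
    (h1 : ∀ j, 0 ≤ p j) (h2 : ∀ j, n j < 0 → p j = 0) (h3 : ∀ j, 0 < n j → 0 < p j) {s : ℝ}
    (hs : s ∈ Icc (0 : ℝ) 1) : twPath n p s ≠ 0 := by
  have hnn : ‖n‖ ≠ 0 := norm_ne_zero_iff.mpr hn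
  have e1 : ‖‖n‖⁻¹ • n‖ = 1 := by
    rw [norm_smul, norm_inv, norm_norm, inv_mul_cancel₀ hnn]
  have e2 : ‖rf p (absDir n)‖ = 1 := by rw [norm_rf hp, norm_absDir hn]
  refine seg_ne_of_norm_eq (e1.trans e2.symm) ?_ ?_ hs
  · intro h
    rw [h, norm_zero] at e2
    exact zero_ne_one e2
  · rw [add_comm]
    exact add_ne_zero_of hn hp h1 h2 h3

/-- On the flat region the path is constant. -/
theorem twPath_flat {n p : EuclideanSpace ℝ ι} (hle : ∀ j, n j ≤ 0)
    (h2 : ∀ j, n j < 0 → p j = 0) (s : ℝ) : twPath n p s = ‖n‖⁻¹ • n := by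
  have e1 : absDir n = ‖n‖⁻¹ • n := absDir_of_nonpos hle
  have e2 : ⟪n, p⟫ = 0 := by
    rw [inner_eq]
    refine Finset.sum_eq_zero fun j _ => ?_
    rcases (hle j).lt_or_eq with h | h
    · rw [h2 j h, mul_zero]
    · rw [h, zero_mul]
  have e3 : rf p (absDir n) = ‖n‖⁻¹ • n := by
    rw [rf_of_inner_eq_zero, e1]
    rw [e1, inner_smul_left, e2, mul_zero]
  rw [twPath, e3, ← add_smul, sub_add_cancel, one_smul]

/-- The rotated path of normals. -/
noncomputable def twRot (n p : EuclideanSpace ℝ ι) (s : ℝ) : EuclideanSpace ℝ ι :=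
  rot (absDir n) (eDiag ι) (‖twPath n p s‖⁻¹ • twPath n p s)

variable {n p : EuclideanSpace ℝ ι}

theorem norm_twRot (hn : n ≠ 0) {s : ℝ} (h : twPath n p s ≠ 0) : ‖twRot n p s‖ = 1 := by
  rw [twRot, norm_rot (norm_absDir hn) norm_eDiag (one_add_inner_absDir _).ne', norm_smul,
    norm_inv, norm_norm, inv_mul_cancel₀ (norm_ne_zero_iff.mpr h)]

theorem twRot_zero (hn : n ≠ 0) :
    twRot n p 0 = rot (absDir n) (eDiag ι) (‖n‖⁻¹ • n) := by
  have hnn : ‖n‖ ≠ 0 := norm_ne_zero_iff.mpr hn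
  have e0 : twPath n p 0 = ‖n‖⁻¹ • n := by
    rw [twPath, sub_zero, one_smul, zero_smul, add_zero]
  have e1 : ‖‖n‖⁻¹ • n‖ = 1 := by
    rw [norm_smul, norm_inv, norm_norm, inv_mul_cancel₀ hnn]
  rw [twRot, e0, e1, inv_one, one_smul]

/-- The end of the path has the form `psiMap`. -/
theorem twRot_one (hn : n ≠ 0) (hp : p ≠ 0) :
    twRot n p 1 = rf (rot (absDir n) (eDiag ι) p) (eDiag ι) := by
  have e0 : twPath n p 1 = rf p (absDir n) := by
    rw [twPath, sub_self, zero_smul, zero_add, one_smul]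
  have e1 : ‖rf p (absDir n)‖ = 1 := by rw [norm_rf hp, norm_absDir hn]
  rw [twRot, e0, e1, inv_one, one_smul,
    rot_rf (norm_absDir hn) norm_eDiag (one_add_inner_absDir _).ne',
    rot_left (norm_absDir hn) (one_add_inner_absDir _).ne']

theorem twRot_flat (hn : n ≠ 0) (hle : ∀ j, n j ≤ 0) (h2 : ∀ j, n j < 0 → p j = 0) (s : ℝ) :
    twRot n p s = eDiag ι := by
  have hnn : ‖n‖ ≠ 0 := norm_ne_zero_iff.mpr hn
  have e1 : ‖‖n‖⁻¹ • n‖ = 1 := by
    rw [norm_smul, norm_inv, norm_norm, inv_mul_cancel₀ hnn]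
  rw [twRot, twPath_flat hle h2, e1, inv_one, one_smul, rot_normal_of_nonpos hn hle]

/-- Continuity of the rotated path in all variables. -/
theorem continuousAt_twRot {X : Type*} [TopologicalSpace X] {n p : X → EuclideanSpace ℝ ι}
    {s : X → ℝ} {x : X} (hn : ContinuousAt n x) (hp : ContinuousAt p x) (hs : ContinuousAt s x)
    (hn0 : n x ≠ 0) (hp0 : p x ≠ 0) (h : twPath (n x) (p x) (s x) ≠ 0) :
    ContinuousAt (fun y => twRot (n y) (p y) (s y)) x := by
  have hni : ContinuousAt (fun y => ‖n y‖⁻¹) x := hn.norm.inv₀ (norm_ne_zero_iff.mpr hn0)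
  have ha : ContinuousAt (fun y => absDir (n y)) x := by
    unfold absDir
    exact hni.smul (continuous_absV.continuousAt.comp hn)
  have hpp : ⟪p x, p x⟫ ≠ 0 := inner_self_ne_zero.mpr hp0
  have hr : ContinuousAt (fun y => rf (p y) (absDir (n y))) x := by
    unfold rf
    exact ha.sub ((continuousAt_const.mul ((ContinuousAt.inner (𝕜 := ℝ) ha hp).div
      (ContinuousAt.inner (𝕜 := ℝ) hp hp) hpp)).smul hp)
  have hq : ContinuousAt (fun y => twPath (n y) (p y) (s y)) x := by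
    unfold twPath
    exact ((continuousAt_const.sub hs).smul (hni.smul hn)).add (hs.smul hr)
  unfold twRot
  exact continuousAt_rot ha continuousAt_const
    ((hq.norm.inv₀ (norm_ne_zero_iff.mpr h)).smul hq) (one_add_inner_absDir _).ne'

end Vale.Agent.P268.T.H73
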